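import Vale.Agent.P269L.G.Lim

set_option linter.unusedSectionVars false

/-!
# The Gysin pull-back of the limit class is the virtual class
-/

namespace Vale.Agent.P269L.G

open Set Function Topology Filter Bornology P291Z P269 P269.Orb P269.Ch

variable {A W E P : Type} [NormedRing A] [NormedAlgebra ℂ A] [NormedAddCommGroup W]
  [NormedSpace ℂ W] [NormedAddCommGroup E] [NormedSpace ℂ E] [AddCommGroup P] [Module ℂ P]
  [TopologicalSpace P]

namespace Df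

variable {act : A → W → W} {ρ' : A → E → E} {O : Set W} {M C : Set (W × E)}
  (h : Df act ρ' O M C)
include h

theorem rho_zero {a : A} (ha : IsUnit a) : ρ' a 0 = 0 := by
  have := h.lin a ha 0 0
  rwa [zero_smul, zero_smul] at this

/-- Compactness of the part of `M × E` that lies over compact sets. -/
theorem cpt {X : Type} [TopologicalSpace X] {F : Holo.Sp (Tx.act2 act ρ') M × E → X}
    (hF : Continuous F) {γ : ℂ → Quo (Tx.act2 act ρ') M → X}
    (hγ : ∀ c m, γ c m.mk = F (m, c • m.val.2)) (K : Set (Quo (Tx.act2 act ρ') (O ×ˢ univ)))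
    (hK : IsCompact K) :
    ∃ K', IsCompact K' ∧ ∀ᶠ c in cobounded ℂ, ∀ y, h.gq c y ∈ K → γ c y ∈ K' := by
  have := h.actT
  have := h.actM
  have := h.orbT.nice
  have := h.orbM.nice
  have := h.orbT.proper
  have := h.orbT.grp
  obtain ⟨L, h1, h2⟩ := h.prop K hK
  obtain ⟨L', h3, h4⟩ := exists_cpt isQuo_sp h1
  obtain ⟨K', h5, h6⟩ := exists_cpt isQuo_sp hK
  let S : Holo.Sp (Tx.act2 act ρ') (O ×ˢ univ) → Holo.Sp (Tx.act2 act ρ') (O ×ˢ univ) :=
    fun u => Holo.Sp.of (Tx.act2 act ρ') (u.val.1, 0) ⟨u.val_mem.1, trivial⟩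
  have h7 : Continuous S := (Holo.Sp.continuous_val.fst.prodMk continuous_const).subtype_mk _
  have h8 := ((ProperSMul.isProperMap_smul_pair (G := Aˣ)).isCompact_preimage ((h5.image h7).prod
    (h3.image (h7.comp (h.g_cont 0))))).image continuous_fst
  have h9 : Continuous fun p : Holo.Sp (Tx.act2 act ρ') M × Aˣ ×
      Holo.Sp (Tx.act2 act ρ') (O ×ˢ univ) => F (p.1, (p.2.1⁻¹ • p.2.2).val.2) :=
    hF.comp (continuous_fst.prodMk (Holo.Sp.continuous_val.comp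
      (continuous_snd.fst.inv.smul continuous_snd.snd)).snd)
  refine ⟨_, (h3.prod (h8.prod h5)).image h9, ((tendsto_norm_cobounded_atTop (E := ℂ)).eventually
    (eventually_ge_atTop 1)).mono fun c hc y hy => ?_⟩
  obtain ⟨m, e1, rfl⟩ := h4 (h2 c hc y hy)
  obtain ⟨u, e2, e3⟩ := h6 hy
  obtain ⟨a, rfl⟩ := Holo.Sp.mk_eq_iff.1 ((h.gq_mk c m).symm.trans e3.symm)
  refine ⟨(m, a, a • h.g c m), ⟨e1, ⟨(a, S (h.g 0 m)), ⟨⟨_, e2, Holo.Sp.ext (Prod.ext rfl
    (h.rho_zero a.isUnit).symm)⟩, m, e1, rfl⟩, rfl⟩, e2⟩, ?_⟩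
  rw [hγ]
  exact congrArg (fun u : Holo.Sp _ (O ×ˢ univ) => F (m, u.val.2)) (inv_smul_smul a (h.g c m))

variable [FiniteDimensional ℂ E] {D : KD A (W × E) P} {Z' S' : Set (W × E)}

theorem gysin_kp (hd : D.Dom (Tx.act2 act ρ') Z' S' M) {k : KP hd.sp} {i : k.P.W →ₗ[ℂ] P}
    (hk : hd.IsKP k i) (h0 : k.v = 0) (hv : ∀ y, D.van y = ⊥) {j : E →ₗ[ℂ] P} (hj : Injective j)
    (hr : LinearMap.range j = D.P₀) (he : ∀ a u, IsUnit a → j (ρ' a u) = D.ρ a (j u))
    (hs : ∀ y, D.s y = j y.2) {B : W × E → Submodule ℂ P} (hB : ∀ y ∈ C, B y = D.obs (y.1, 0))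
    (hle : ∀ y ∈ C, B y ≤ D.P₀) (hC : ∀ y ∈ C, (y.1, 0) ∈ M ∧ j y.2 ∈ B y) :
    (∃ t, IsThomOf (Tx.act2 act ρ') D.ρ C B (fun _ => ⊥) t) ∧
    ∀ t, IsThomOf (Tx.act2 act ρ') D.ρ C B (fun _ => ⊥) t → ∀ (Z : Type) [TopologicalSpace Z]
      (z : Z → Quo (Tx.act2 act ρ') M), IsEmbedding z → range z = k.Z →
      ∀ p : Quo (Tx.act2 act ρ') C → Z, (∀ y : C, z (p (Quo.mk _ y)) =
        Quo.mk _ ⟨(y.1.1, 0), (hC _ y.2).1⟩) → ∀ β, ∀ a ∈ Zc Z, ev (k.vir z β) a = ev (h.lm β)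
          (pull p a * pull (sec (Tx.act2 act ρ') D.ρ C B (fun _ => ⊥) fun y => j y.2) t) := by
  have := h.actT
  have := h.actC
  have := h.niceT
  have := h.niceM
  obtain ⟨e, e1⟩ : ∃ e : E ≃L[ℂ] k.P.W, ∀ u, i (e u) = j u := by
    let e := (LinearEquiv.ofInjective j hj).trans ((LinearEquiv.ofEq _ _
      (hr.trans hk.range.symm)).trans (LinearEquiv.ofInjective i hk.emb.injective).symm)
    exact ⟨e.toContinuousLinearEquiv, fun u => congrArg Subtype.val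
      ((LinearEquiv.ofInjective i hk.emb.injective).apply_symm_apply _)⟩
  have e2 : ∀ (g : hd.sp.G) u, e (ρ' (hd.pres.u g) u) = g • e u := fun g u =>
    hk.emb.injective (by rw [e1, he _ _ (hd.pres.unit g), hk.eqv, e1])
  have e3 : ∀ t : hd.sp.T, k.s t = e (hd.pres.i t).2 := fun t =>
    hk.emb.injective (by rw [hk.sec, e1, hs])
  have e4 : ∀ t, k.van t = ⊥ := fun t => Submodule.ext fun w => by
    rw [hk.van, hv, Submodule.mem_bot, Submodule.mem_bot, map_eq_zero_iff i hk.emb.injective]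
  let m : Mor (spA h.orbC) hd.sp := ⟨MonoidHom.id Aˣ, fun y : Holo.Sp (Tx.act2 act ρ') C =>
    Holo.Sp.of (Tx.act2 act ρ') (y.val.1, 0) (hC _ y.val_mem).1, continuous_id,
    (Holo.Sp.continuous_val.fst.prodMk continuous_const).subtype_mk _,
    fun (g : Aˣ) _ => Subtype.ext (Prod.ext rfl (h.rho_zero g.isUnit).symm)⟩
  have hm : ∀ t, m.f t ∈ k.Zs := fun t =>
    ((e3 (m.f t)).trans (map_zero e)).symm.subst (motive := (· ∈ k.van (m.f t)))
      (k.van _).zero_mem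
  have e5 : ∀ (t : Holo.Sp (Tx.act2 act ρ') C) w, w ∈ k.obs (m.f t) ↔ i w ∈ B t.val := fun t w =>
    (hk.obs _ (hm t) w).trans (congrArg (i w ∈ ·) (hB _ (Subtype.prop t))).to_iff.symm
  have hA : Hom m (k.obsB m hm) k.P fun _ => LinearMap.id :=
    ⟨fun _ _ _ => hk.memF _ _, continuous_snd.comp continuous_subtype_val, fun _ _ _ _ => rfl⟩
  have hM : IsMod (presA h.orbC) D.ρ B (fun _ => ⊥) (k.obsB m hm) (k.obsB m hm) i
      fun _ => LinearMap.id :=
    ⟨hk.emb, fun t => le_antisymm (by rintro _ ⟨w, hw, rfl⟩; exact (e5 t w).1 hw) fun f hf =>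
      let ⟨w, hw⟩ := hk.lift (hle _ (Holo.Sp.val_mem t) hf); ⟨w, (e5 t w).2 (hw ▸ hf), hw⟩,
      fun g _ w _ => sub_eq_zero.2 (hk.eqv g w), fun _ => bot_le,
      ⟨fun _ _ a => a, continuous_snd.comp continuous_subtype_val, fun _ _ _ _ => rfl⟩,
      fun _ w a => ⟨w, a, rfl⟩, fun _ _ _ => (map_eq_zero_iff i hk.emb.injective).symm⟩
  have hS : (k.obsB m hm).IsSec fun y : Holo.Sp (Tx.act2 act ρ') C => e y.val.2 :=
    ⟨fun y => (e5 y _).2 (e1 _ ▸ (hC _ (Holo.Sp.val_mem y)).2),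
      e.continuous.comp Holo.Sp.continuous_val.snd, fun g y => e2 g _⟩
  refine ⟨hM.exists_isThomOf, fun t ht Z _ z hz hz' p hp β a ha => ?_⟩
  let f : k.P.V → Quo (Tx.act2 act ρ') (O ×ˢ univ) := fun v => Quo.mk _
    ⟨((hd.pres.i v.1.1).1, e.symm v.1.2), (h.subM (hd.pres.mem _)).1, trivial⟩
  obtain ⟨q, hq⟩ := k.P.tot.isQuo.exists_lift f fun (g : hd.sp.G) (v : k.P.V) =>
    (Quot.sound ⟨_, hd.pres.unit g, Prod.ext rfl (e.symm_apply_eq.2
      ((congrArg (g • ·) (e.apply_symm_apply _).symm).trans (e2 g _).symm))⟩).symm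
  have q1 : Continuous q := k.P.tot.isQuo.continuous_lift (continuous_quot_mk.comp
    (((hd.pres.emb.continuous.comp continuous_subtype_val.fst).fst.prodMk
      (e.symm.continuous.comp continuous_subtype_val.snd)).subtype_mk _)) hq
  have q2 : ∀ y : Holo.Sp (Tx.act2 act ρ') C, hA.mor.map (hS.mor.map y.mk) =
      k.P.tot.π (⟨(m.f y, e y.val.2), hk.memF _ _⟩ : k.P.V) := fun y =>
    (congrArg hA.mor.map (hS.mor.map_π y)).trans (hA.mor.map_π _)
  have q3 : ∀ c, q (hA.mor.map (hS.mor.map c)) = Quo.incl _ h.subC c := fun c => by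
    obtain ⟨y, rfl⟩ := Holo.Sp.surjective_mk c
    exact (congrArg q (q2 y)).trans ((hq _).trans (congrArg (Quo.mk _)
      (Subtype.ext (Prod.ext rfl (e.symm_apply_apply _)))))
  have q4 := hA.mor.map.continuous.comp hS.mor.map.continuous
  have q5 : q ∘ hA.mor.map ∘ hS.mor.map = Quo.incl _ h.subC := funext q3
  have q6 : IsClosedEmbedding (hA.mor.map ∘ hS.mor.map) :=
    ⟨IsEmbedding.of_comp q4 q1 (q5 ▸ h.embC.isEmbedding), (isProperMap_of_comp_of_t2 q4 q1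
      (q5 ▸ h.embC.isProperMap)).isClosedMap.isClosed_range⟩
  have hD : Dg (cobounded ℂ) (gam k.sec) (hA.mor.map ∘ hS.mor.map) := by
    refine P269L.dg k.sec q6 fun v hv => ?_
    have a1 : (hd.pres.i v.1.1).2 = 0 :=
      e.injective ((e3 _).symm.trans ((zero_of_mem k.sec hv).trans (map_zero e).symm))
    refine ⟨Holo.Sp.mk (Holo.Sp.of (Tx.act2 act ρ') ((hd.pres.i v.1.1).1, e.symm v.1.2) (h.lim'
      (h.subM (hd.pres.mem _)).1 (map_mem_closure (f := fun x : hd.sp.T × k.P.W × ℂ =>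
        (((hd.pres.i x.1).1, e.symm x.2.1), x.2.2)) ?_ hv fun x hx => ⟨hx.1, ?_⟩))),
      (q2 _).trans (congrArg _ (Subtype.ext (Prod.ext (Holo.Sp.ext (Prod.ext rfl a1.symm))
        (e.apply_symm_apply _))))⟩
    · exact ((hd.pres.emb.continuous.comp continuous_fst).fst.prodMk
        (e.symm.continuous.comp continuous_snd.fst)).prodMk continuous_snd.snd
    · dsimp only
      rw [← map_smul, hx.2, e3, e.symm_apply_apply]
      exact hd.pres.mem _
  have hL := lm_eq (γ := h.gq) h.dg hD tendsto_sc q1 q3 (fun c y => by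
      obtain ⟨t, rfl⟩ := hd.sp.surj y
      refine (congrArg q (gam_π k.sec c t)).trans ((hq _).trans (congrArg (Quo.mk _)
        (Subtype.ext (Prod.ext rfl ?_))))
      exact (map_smul e.symm c _).trans (congrArg (c • ·) (e.symm_apply_eq.2 (e3 t))))
    (h.cpt (F := fun x => k.P.tot.π (⟨(x.1, e x.2), hk.memF _ _⟩ : k.P.V))
      (k.P.tot.cont.comp ((continuous_fst.prodMk (e.continuous.comp continuous_snd)).subtype_mk _))
      fun c t => (gam_π k.sec c t).trans (congrArg _ (Subtype.ext (Prod.ext rfl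
        ((congrArg (c • ·) (e3 t)).trans (map_smul e c _).symm))))) β
  rw [hM.pull_sec hS (fun y => ⟨_, hS.mem y, e1 _, rfl⟩) t]
  refine (ev_vir (p := p) k e4 hD hm hA (fun _ _ a => a) (fun _ _ _ a => a)
    ((congrArg (· + k.r) h0).trans (zero_add _)) (hM.isThom_pull ht) hS.mor.map.continuous
    (fun _ => rfl) hz hz' (fun c => ?_) β ha).trans ?_
  · rw [hS.proj_map]
    obtain ⟨y, rfl⟩ := Holo.Sp.surjective_mk c
    exact (hp y).trans (m.map_π y).symm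
  · exact (congrArg (ev · _) hL.symm).trans
      (congrArg (fun x => ev (h.lm β) (pull p a * x)) (pull_id _).symm)

variable [IsTopologicalAddGroup P] [ContinuousSMul ℂ P] [T2Space P]

/-- **The Gysin formula** in coordinates. -/
theorem gysin {r : ℕ} (hd : D.Gd (Tx.act2 act ρ') Z' M 0 r) (hv : ∀ y, D.van y = ⊥)
    {j : E →ₗ[ℂ] P} (hj : Injective j) (hr : LinearMap.range j = D.P₀)
    (he : ∀ a u, IsUnit a → j (ρ' a u) = D.ρ a (j u)) (hs : ∀ y, D.s y = j y.2)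
    {B : W × E → Submodule ℂ P} (hB : ∀ y ∈ C, B y = D.obs (y.1, 0))
    (hC : ∀ y ∈ C, (y.1, 0) ∈ M ∧ j y.2 ∈ B y) :
    (∃ t, IsThomOf (Tx.act2 act ρ') D.ρ C B (fun _ => ⊥) t) ∧
    ∀ t, IsThomOf (Tx.act2 act ρ') D.ρ C B (fun _ => ⊥) t →
      ∀ p : Quo (Tx.act2 act ρ') C → Quo (Tx.act2 act ρ') Z',
      (∀ y : C, ∃ x : Z', x.1 = (y.1.1, 0) ∧ p (Quo.mk _ y) = Quo.mk _ x) →
      ∀ β, ∀ a ∈ Zc (Quo (Tx.act2 act ρ') Z'), ev (D.vr (Tx.act2 act ρ') Z' M β) a = ev (h.lm β)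
        (pull p a * pull (sec (Tx.act2 act ρ') D.ρ C B (fun _ => ⊥) fun y => j y.2) t) := by
  obtain ⟨k, i, hk, h0, -⟩ := hd.dom.exists_isKP hd.ok Subset.rfl
  obtain ⟨h1, h2⟩ := h.gysin_kp hd.dom hk h0 hv hj hr he hs hB (fun y hy => (hB y hy).trans_le
    (hd.ok.obs_le _ (hC y hy).1 (by rw [hs, j.map_zero]; exact (D.van _).zero_mem))) hC
  refine ⟨h1, fun t ht p hp β a ha => ?_⟩
  rw [hd.dom.vr_eq hk]
  refine h2 t ht _ _ (hd.dom.isZ hk).emb.isEmbedding (hd.dom.range_incl hk) p (fun y => ?_) β a ha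
  obtain ⟨x, e1, e2⟩ := hp y
  rw [e2]
  exact congrArg (Quo.mk _) (Subtype.ext e1)

end Df

end Vale.Agent.P269L.G
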