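import Vale.Agent.P269L.G.Co
import Vale.Agent.P269L.Lim.Gy
import Vale.Agent.P269.Map.W
import Vale.Agent.P269.Loc.BH

/-!
# The virtual class computed on the space of representatives
-/

set_option linter.all false

namespace Vale.Agent.P269L.G

open Set Function Topology Filter Module P291Z P269 P269.Ch P269.Holo P269.Orb

variable {A W P E : Type} [NormedRing A] [NormedAlgebra ℂ A] [NormedAddCommGroup W]
  [NormedSpace ℂ W] [NormedAddCommGroup E] [NormedSpace ℂ E] [AddCommGroup P] [Module ℂ P]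
  [TopologicalSpace P] [FiniteDimensional ℂ A] [FiniteDimensional ℂ W] [FiniteDimensional ℂ E]
  {act : A → W → W} {Z S O : Set W} {v r d : ℕ} {D : KD A W P}

section sub

variable {h : D.Dom act Z S O} (V : VB h.sp)

/-- the coordinates on the total space -/
def crd (x : V.tot.T) : W × V.W := (Holo.Sp.val (act := act) (S := O) x.1.1, x.1.2)

variable {V} {ρ : A → V.W → V.W} (ha : IsAct (Tx.act2 act ρ) (TT V.W O))
  (he : ∀ (g : Aˣ) (w : V.W), (show h.sp.G from g) • w = ρ g w)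
  (hm : ∀ x : O, IsMfd (Subtype.val : O → W) (finrank ℂ A + d) x)
  (hV : ∀ t, HolSub (Holo.Sp.val (act := act) (S := O)) {p | p.2 ∈ V.F p.1} v t)
include ha he hm hV

theorem holOrb_crd : HolOrb V.tot.G (crd V) (d + v) := by
  haveI := FiniteDimensional.complete ℂ (W × V.W)
  haveI := FiniteDimensional.complete ℂ A
  letI : MulAction Aˣ V.tot.T := V.tot.act
  have e : ∀ (g : Aˣ) (x : V.tot.T), crd V (g • x) = Tx.act2 act ρ g (crd V x) := fun g x =>
    Prod.ext rfl (he g _)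
  have m : ∀ x : V.tot.T, IsMfd (crd V) (finrank ℂ A + (d + v)) x := fun x =>
    add_assoc (finrank ℂ A) d _ ▸ HolSub.isMfd (j := (Subtype.val : V.V → _))
      IsEmbedding.subtypeVal (hm _) (hV _) (.of_forall fun p => Set.ext_iff.1 Subtype.range_coe p)
  have a : ∀ x : V.tot.T, HolAct (G := V.tot.G) (expU : A → Aˣ) (crd V) x := fun x =>
    holAct_units (t := x) (ha.an 1 isUnit_one _ ⟨x.1.1.2, trivial⟩) e
  exact HolOrb.of_mfd (G := V.tot.G) isExp_expU a (fun x => HolAct.inf_injective (G := V.tot.G)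
    isExp_expU (a x) (m x).eventually_eq
      (eventually_stab (G := Aˣ) (V.tot.orb.finite_stabilizer x))) m
    fun (g : Aˣ) x => holAt_smul_units g (ha.an _ g.isUnit _ ⟨x.1.1.2, trivial⟩) e

/-- **the zero section of a holomorphic bundle** -/
theorem gys_crd (hr : V.r = v) :
    gys V.zero.map V.th (fundQ V.tot.G (crd V) V.tot.π (d + v)) = h.fnd d := by
  have := h.isAct
  have ho := h.orb
  have := FiniteDimensional.complete ℂ A
  have := FiniteDimensional.complete ℂ W
  let _ : MulAction V.tot.G h.sp.T := h.sp.act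
  let _ : MulAction Aˣ V.W := V.act.toMulAction
  let _ : MulAction Aˣ V.tot.T := V.tot.act
  have : ContinuousSMul Aˣ V.tot.T := V.tot.orb.contSMul
  have := ho.contSMul
  have hz := V.isSec_zero
  refine (hz.gys_move _).symm.trans (((holOrb_of_orb ho hm).gys_eul_frame
    (B₁ := Fin v → ℂ) isQuo_sp (holOrb_crd ha he hm hV) hz.isSec_sub hr (finrank_fin_fun ℂ)
    hz.isClosedEmbedding (fun t ht => ⟨h.sp.π t.1.1, (hz.mor.map_π _).trans (congrArg _
      (Subtype.ext (Prod.ext rfl ((sub_zero _).symm.trans ht).symm)))⟩)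
    (isQuo_sp.meets dense_univ) fun y _ => ?_).trans (one_smul ℂ _))
  obtain ⟨φ, a0, a1⟩ := Holo.Sp.exists_slK (hm y) (ho.finite_stabilizer y) rfl
  obtain ⟨l, b⟩ := hV (φ 0)
  have c : AnalyticAt ℂ (fun p : A × V.W => ρ p.1 p.2) (1, l (φ 0) 0) :=
    analyticAt_snd.comp ((ha.an 1 isUnit_one ((φ 0).val, l (φ 0) 0)
      ⟨(φ 0).2, trivial⟩).comp_of_eq (analyticAt_fst.prod (analyticAt_const.prod analyticAt_snd))
        rfl)
  have hj : IsEmbedding fun x : V.tot.T => (x.1 : Holo.Sp act O × V.W) := IsEmbedding.subtypeVal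
  obtain ⟨Φ, a2, a3⟩ := a1.total (G := Aˣ) isExp_expU
    (holAct_units (IsAct.an (S := O) 1 isUnit_one _ (φ 0).2) fun _ _ => rfl) b 0
    (holAct_units c he) hj (fun _ _ => rfl)
    (.of_forall fun p => Set.ext_iff.1 Subtype.range_coe p)
  have a4 : Φ (0, 0) = hz.mor.f y :=
    Subtype.ext (a3.self_of_nhds.trans (Prod.ext a0 (map_zero _)))
  refine ⟨φ, Φ, fun p => l (φ p.1), a1.isSl isExp_expU, a0, a2.isSl isExp_expU,
    ((tendsto_inl (0 : Fin d → ℂ) (0 : Fin v → ℂ)).eventually a3).mono fun u hu =>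
      (hz.mor.map_π _).trans (congrArg _ (Eq.symm (Subtype.ext
        (hu.trans (Prod.ext rfl (map_zero _)))))),
    ((b.hol.cont Holo.Sp.continuous_val.continuousAt).comp (a1.cont isExp_expU)).comp_of_eq
      continuousAt_fst rfl, b.inj,
    a3.mono fun p hp => (sub_zero _).trans (congrArg Prod.snd hp), ?_⟩
  rw [one_mul, a4]
  exact congrArg _ (stab_of_injective (G := V.tot.G)
    (LeftInverse.injective (g := V.proj.f) fun _ => rfl) hz.mor.eqv y).symm

end sub

/-- The identification of the two zero sets. -/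
noncomputable def pz (act : A → W → W) (ρ' : A → E → E) (Z : Set W) :
    Quo (Tx.act2 act ρ') (Z ×ˢ {0}) → Quo act Z :=
  Quot.map (fun x => ⟨x.1.1, x.2.1⟩) fun _ _ ⟨a, ha, e⟩ => ⟨a, ha, congrArg Prod.fst e⟩

theorem pz_mk {ρ' : A → E → E} (x : (Z ×ˢ {0} : Set (W × E))) :
    pz act ρ' Z (Quo.mk _ x) = Quo.mk act ⟨x.1.1, x.2.1⟩ := rfl

variable {j : E →ₗ[ℂ] P} {ρ' : A → E → E} (h : T.Kur D act Z S O v r d)
  (c : Crd D j ρ')
include h

theorem gd : D.Gd act Z O v r := ⟨h.dom.self, h.ok⟩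

theorem actZ : IsAct act Z := h.dom.isAct.mono h.dom.sub (ivtZ h)

variable [IsTopologicalAddGroup P] [ContinuousSMul ℂ P] [T2Space P]

theorem niceZ : Nice (Quo act Z) :=
  let ⟨_, _, hk, _⟩ := h.exists_isKP
  h.dom.niceZ hk

theorem stm_vr {β : BM (Quo act Z)} : D.Stm act Z S β ↔ β = D.vr act Z O (h.dom.fnd d) := by
  obtain ⟨k, i, hk, -⟩ := h.exists_isKP
  rw [h.dom.vr_eq hk]
  exact h.stm_iff hk

include c

theorem gdM : (dM D j).Gd (Tx.act2 act ρ') (Z ×ˢ {0}) (RM D j O) 0 (v + r) := gd (kurM h c)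

theorem pz_homeo : IsHomeomorph (pz act ρ' Z) := by
  have := actZ h
  have := actZ (kurM h c)
  let e : Holo.Sp (Tx.act2 act ρ') (Z ×ˢ {0}) ≃ₜ Holo.Sp act Z :=
    { toFun x := .of act x.val.1 x.2.1
      invFun x := .of _ (x.val, 0) ⟨x.2, rfl⟩
      left_inv x := Subtype.ext (Prod.ext rfl x.2.2.symm)
      right_inv _ := rfl
      continuous_toFun := (continuous_fst.comp continuous_subtype_val).subtype_mk _
      continuous_invFun := (continuous_subtype_val.prodMk continuous_const).subtype_mk _ }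
  have a := isQuo_sp.isOpenEmbedding isQuo_sp e.isOpenEmbedding (fun _ _ => rfl)
    (J := pz act ρ' Z) fun _ => rfl
  refine ⟨a.continuous, a.isOpenMap, a.injective, fun z => ?_⟩
  obtain ⟨x, rfl⟩ := Holo.Sp.surjective_mk z
  exact ⟨Holo.Sp.mk (e.symm x), rfl⟩

/-- **The virtual class is computed on the space of representatives.** -/
theorem vr_tot : haveI := niceZ h
    res (pz act ρ' Z) (D.vr act Z O (h.dom.fnd d)) =
      (dM D j).vr (Tx.act2 act ρ') (Z ×ˢ {0}) (RM D j O) ((kurM h c).dom.fnd (d + v)) := by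
  have := niceZ h
  obtain ⟨k, i, hk, hv, -⟩ := h.exists_isKP
  have := h.dom.isAct
  have := actM h c
  have hi := hk.emb.injective
  let L : E ≃L[ℂ] k.P.W := ((LinearEquiv.ofInjective j c.inj).trans ((LinearEquiv.ofEq _ _
    (c.rng.trans hk.range.symm)).trans (LinearEquiv.ofInjective i hi).symm)).toContinuousLinearEquiv
  have eL : ∀ u, i (L u) = j u := fun u =>
    congrArg Subtype.val ((LinearEquiv.ofInjective i hi).apply_symm_apply ⟨j u, _⟩)
  clear_value L
  have c' : Crd D i fun a u => invFun i (D.ρ a (i u)) :=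
    ⟨hi, hk.range, fun a u ha => invFun_eq (hk.lift (h.ok.rep.mem a ha _ (hk.mem u)))⟩
  have he : ∀ (g : Aˣ) (w : k.P.W), (show h.dom.sp.G from g) • w = invFun i (D.ρ g (i w)) :=
    fun g w => hi ((hk.eqv g w).trans (c'.eqv _ _ g.isUnit).symm)
  have b1 : ∀ (x : h.dom.sp.T) u, i (k.s x - L u) = D.s x.1 - j u := fun x u => by
    rw [map_sub, eL, hk.sec]; rfl
  have b2 : ∀ (g : Aˣ) u, L (ρ' g u) = (show h.dom.sp.G from g) • L u := fun g u =>
    hi ((eL _).trans ((c.eqv _ _ g.isUnit).trans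
      ((congrArg _ (eL u).symm).trans (hk.eqv g _).symm)))
  let e : (kurM h c).dom.sp.T ≃ₜ k.vanB.tot.T :=
    { toFun x := (⟨(⟨x.1.1, x.2.1⟩, k.s ⟨x.1.1, x.2.1⟩ - L x.1.2),
        (hk.van _ _).2 ((b1 _ _).symm ▸ x.2.2)⟩ : k.vanB.V)
      invFun y := ⟨(y.1.1.1, L.symm (k.s y.1.1 - y.1.2)), y.1.1.2, by
        rw [← b1, L.apply_symm_apply, sub_sub_cancel]
        exact (hk.van _ _).1 y.2⟩
      left_inv x := Subtype.ext (Prod.ext rfl
        ((congrArg L.symm (sub_sub_cancel _ _)).trans (L.symm_apply_apply _)))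
      right_inv y := Subtype.ext (Prod.ext rfl
        ((congrArg (_ - ·) (L.apply_symm_apply _)).trans (sub_sub_cancel _ _)))
      continuous_toFun := by
        have a : Continuous fun x : RM D j O => (⟨x.1.1, x.2.1⟩ : O) :=
          (continuous_fst.comp continuous_subtype_val).subtype_mk _
        exact (a.prodMk ((k.sec.cont.comp a).sub
          (L.continuous.comp (continuous_snd.comp continuous_subtype_val)))).subtype_mk _
      continuous_invFun := ((continuous_subtype_val.comp k.vanB.proj.cf).prodMk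
        (L.symm.continuous.comp ((k.sec.cont.comp k.vanB.proj.cf).sub
          k.vanB.isSec_tau.cont))).subtype_mk _ }
  let φ : Mor (kurM h c).dom.sp k.vanB.tot := ⟨MonoidHom.id Aˣ, e, continuous_id, e.continuous,
    fun (g : Aˣ) x => Subtype.ext (Prod.ext rfl ((congrArg₂ (· - ·)
      (k.sec.eqv g ⟨x.1.1, x.2.1⟩) (b2 g _)).trans (smul_sub _ _ _).symm))⟩
  have hk' : (kurM h c).dom.IsKP ((kM k).pb φ) i :=
    ⟨hk.emb, hk.range, fun _ => hk.top _, hk.eqv, fun _ w => (map_eq_zero_iff i hi).symm,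
      fun t => (congrArg i (sub_sub_cancel _ _)).trans (eL _), fun t ht w =>
        hk.obs _ (((mem_Zs_kM k).1 ht).symm.subst (motive := (· ∈ k.van _)) (e t).2) w⟩
  let _ : MulAction k.vanB.tot.G (kurM h c).dom.sp.T := (kurM h c).dom.sp.act
  have a1 : IsOpenEmbedding φ.f := e.isOpenEmbedding
  have a2 := IsQuo.isOpenEmbedding (G := k.vanB.tot.G) (kurM h c).dom.sp.isQuo
    (Sp.isQuo _) a1 φ.eqv φ.map_π
  have a3 : Surjective φ.map := fun x => by
    obtain ⟨y, rfl⟩ := k.vanB.tot.surj x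
    obtain ⟨t, rfl⟩ := e.surjective y
    exact ⟨_, φ.map_π t⟩
  have hV : ∀ t, HolSub (Holo.Sp.val (act := act) (S := O)) {p | p.2 ∈ k.vanB.F p.1} v t :=
    fun t => ((h.hol' hk).van t).pull (u := id) continuousAt_id HolAt.self
      (.of_forall fun s w => hk.van s w)
  have a4 := (holOrb_crd (V := k.vanB) (actT h c') he h.cyc.mfd hV).res_open
    (kurM h c).dom.sp.isQuo (Sp.isQuo _) a1 φ.eqv φ.map_π
  obtain ⟨Φ, hΦ⟩ := (h.hol' hk).sec
  have b3 : ∀ x : h.dom.sp.T, k.s x = Φ x.1 := fun x => hi ((hk.sec x).trans (hΦ _ x.2).2.symm)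
  have a5 := a4.trans (Loc.fundQ_change (ι' := (kurM h c).dom.pres.i) (fun t =>
    ⟨fun y => (y.1, L.symm (Φ y.1 - y.2)), analyticAt_fst.prod ((L.symm.analyticAt _).comp
      (((hΦ _ t.2.1).1.comp_of_eq (analyticAt_fst (p := crd k.vanB (φ.f t))) rfl).sub
        analyticAt_snd)), .of_forall fun s =>
        (congrArg Subtype.val (e.left_inv s)).symm.trans
          (congrArg (fun w => (_, L.symm (w - _))) (b3 _))⟩) (fun t =>
    ⟨fun y => (y.1, Φ y.1 - L y.2), analyticAt_fst.prod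
      (((hΦ _ t.2.1).1.comp_of_eq analyticAt_fst rfl).sub ((L.analyticAt _).comp analyticAt_snd)),
      .of_forall fun s => congrArg (fun w => (_, w - _)) (b3 _)⟩) _)
  have z' := (kurM h c).dom.isZ hk'
  have z1 : (kM k).IsZ (φ.map ∘ Quo.incl _ (kurM h c).dom.sub) :=
    .of_range (a2.isEmbedding.comp z'.emb.isEmbedding) ((range_comp _ _).trans ((congrArg _
      (((kurM h c).dom.range_incl hk').trans (KP.Z_pb _ _))).trans (image_preimage_eq _ a3)))
  have hp := pz_homeo h c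
  rw [h.dom.vr_eq hk, (kurM h c).dom.vr_eq hk']
  refine ((h.dom.isZ hk).res_homeo hp _).trans ((congrArg _
    (gys_crd (V := k.vanB) (actT h c') he h.cyc.mfd hV hv)).symm.trans ((vir_kM k
      ((h.dom.isZ hk).comp hp.isClosedEmbedding (hp.surjective.range_eq ▸ isOpen_univ)) z1
      (fun z => Quot.inductionOn z fun x => ?_) _).symm.trans
        ((((kM k).cmp_pb φ).vir_res a2 z1 z' (fun _ => rfl) _).trans (congrArg _ a5))))
  exact (congrArg _ (φ.map_π (Holo.Sp.incl (Tx.act2 act ρ') (kurM h c).dom.sub x))).trans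
    (Mor.map_π _ _)

theorem ev_tot {a : Coch (Quo act Z)} (ha : a ∈ Zc (Quo act Z)) :
    pull (pz act ρ' Z) a ∈ Zc (Quo (Tx.act2 act ρ') (Z ×ˢ {0})) ∧
      ev (D.vr act Z O (h.dom.fnd d)) a = ev ((dM D j).vr (Tx.act2 act ρ') (Z ×ˢ {0}) (RM D j O)
        ((kurM h c).dom.fnd (d + v))) (pull (pz act ρ' Z) a) :=
  haveI := niceZ h
  have hp := pz_homeo h c
  ⟨(IsPr.of_isHomeomorph hp).pull_Zc ha, (ev_res hp.isOpenEmbedding _ ha
    (hp.surjective.range_eq ▸ subset_univ _)).symm.trans (congrArg (ev · _) (vr_tot h c))⟩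

end Vale.Agent.P269L.G
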