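import Vale.Agent.P269L.G.Cy
import Vale.Agent.P269L.G.Gys
import Vale.Agent.P269L.G.Tot

/-!
# The bridge: the Gysin pull-back of the normal cone is the localised Euler class
-/

set_option linter.all false

namespace Vale.Agent.P269L.G

open Set Function Topology Filter Module P291Z P269 P269.Ch P269.Holo

variable {A W P : Type} [NormedRing A] [NormedAlgebra ℂ A] [NormedAddCommGroup W]
  [NormedSpace ℂ W] [AddCommGroup P] [Module ℂ P] [TopologicalSpace P]
  [FiniteDimensional ℂ A] [FiniteDimensional ℂ W] [IsTopologicalAddGroup P] [ContinuousSMul ℂ P]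
  [T2Space P] {D : KD A W P} {act : A → W → W} {Z S O : Set W} {v r d : ℕ}

/-- **The virtual class of the new text is the virtual class of the old text.** -/
theorem bridge (h : T.Kur D act Z S O v r d) (b : Pub.Bm (Quo act Z)) :
    Tx.IsVir act D.ρ S Z D.P₀ (fun x => D.van x) (fun x => D.obs x) D.s b ↔
      ∃ w, D.Stm act Z S w ∧ Tf.fn w = b := by
  refine bridge_red h (fun n j ρ' c => ?_) b
  have k := kurM h c
  obtain ⟨g1, g2⟩ := (df h c).gysin (D := dM D j) ⟨k.dom, k.ok⟩ (fun _ => rfl) c.inj c.rng c.eqv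
    (fun _ => rfl) (B := fun y => D.obs y.1) (fun _ _ => rfl) (cone_mem h c)
  refine ⟨fun _ _ a _ _ => mul_unique h c a, _, _, cy_lim h c (df h c), fun _ => stm_vr h, g1,
    fun t ht a ha => ?_⟩
  obtain ⟨e1, e2⟩ := ev_tot h c ha
  let p : Quo (Tx.act2 act ρ') (CC D j Z S) → Quo (Tx.act2 act ρ') (Z ×ˢ {0}) :=
    Quot.map (fun y => ⟨(y.1.1, 0), y.2.1, rfl⟩) fun _ _ ⟨s, hs, e⟩ =>
      ⟨s, hs, Prod.ext (congrArg Prod.fst e :) (rho_zero h c hs).symm⟩
  rw [e2, g2 t ht p (fun y => ⟨⟨(y.1.1, 0), y.2.1, rfl⟩, rfl, rfl⟩) _ _ e1, pull_pull,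
    show pz act ρ' Z ∘ p = prC D act Z S j ρ' from funext (Quot.ind fun _ => rfl)]
  rfl

end Vale.Agent.P269L.G
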