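import Vale.Agent.P269L.G.As0
import Vale.Agent.P269L.D.Main

/-!
# The cone is an analytic orbispace of the expected dimension inside the obstruction spaces
-/

namespace Vale.Agent.P269L.G

open Set Function Topology Filter Module P287Q.H3 P269 P269.Ch P269.Holo P269.Mono

variable {A W P ι : Type} [NormedRing A] [NormedAlgebra ℂ A] [NormedAddCommGroup W]
  [NormedSpace ℂ W] [AddCommGroup P] [Module ℂ P] [TopologicalSpace P] [Fintype ι]
  [FiniteDimensional ℂ A] [FiniteDimensional ℂ W] {D : KD A W P} {act : A → W → W}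
  {Z S O : Set W} {v r d : ℕ} {j : (ι → ℂ) →ₗ[ℂ] P} {ρ' : A → (ι → ℂ) → ι → ℂ}
  (h : T.Kur D act Z S O v r d) (c : Crd D j ρ')
include h c

theorem mfdZ {x : W} (hx : x ∈ Z) : MfdAt (RM D j O) (finrank ℂ A + (d + v)) (x, 0) :=
  mfdM h c ((zero_mem h (h.dom.sub hx)).2 hx)

theorem smallM : Small (2 * (d + v + finrank ℂ A)) (RM D j O) :=
  add_comm (finrank ℂ A) (d + v) ▸ dimLt_succ.1 (DimLt.of_mfd' fun z => (mfdM h c z.2).2)

/-- the cone is the special fibre of the deformation -/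
theorem mem_cone {y : W × (ι → ℂ)} :
    y ∈ CC D j Z S ↔ y.1 ∈ Z ∧ (y, (0 : ℂ)) ∈ P269L.D.BM (RM D j O) := by
  rw [cone_O h]
  exact and_congr_right fun a => P269L.D.cone_iff (mfdZ h c a) y.2

theorem near_cone {x : W} (hx : x ∈ Z) (ξ : ι → ℂ) : ∀ᶠ y in 𝓝 (x, ξ),
    (y, (0 : ℂ)) ∈ P269L.D.BM (RM D j O) ↔ y ∈ CC D j Z S :=
  (lim_near (T.an_of_mfd (mfdZ h c hx))).mono fun _ a =>
    ⟨fun e => (mem_cone h c).2 ⟨(zero_mem h (a e).1).1 (a e), e⟩, fun e => ((mem_cone h c).1 e).2⟩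

theorem an_cone' {x : W} (hx : x ∈ Z) (ξ : ι → ℂ) : An (CC D j Z S) (x, ξ) :=
  (an_lim (T.an_of_mfd (mfdZ h c hx))).congr (near_cone h c hx ξ)

theorem an_cone (y : W × (ι → ℂ)) (hy : y ∈ CC D j Z S) : An (CC D j Z S) y :=
  an_cone' h c hy.1 y.2

theorem small_cone (y : W × (ι → ℂ)) (hy : y ∈ CC D j Z S) :
    ∃ U ∈ 𝓝 y, Small (2 * (d + v + finrank ℂ A)) (U ∩ CC D j Z S) :=
  let ⟨U, h1, h2⟩ := small_lim (ξ := y.2) (T.an_of_mfd (mfdZ h c hy.1)) (smallM h c)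
  ⟨U, h1, h2.mono fun _ e => ⟨e.1, ((mem_cone h c).1 e.2).2⟩⟩

theorem isAS_cone : haveI := actC h c
    IsAS (spA (orbC h c)) (Holo.Sp.val (act := Tx.act2 act ρ')) :=
  haveI := actC h c
  isAS_spA (orbC h c) (an_cone h c)

theorem dim_cone : haveI := actC h c
    Dim (spA (orbC h c)) (Holo.Sp.val (act := Tx.act2 act ρ')) (d + v) :=
  haveI := actC h c
  dim_spA (orbC h c) (small_cone h c)

/-- the cone lies in the obstruction spaces -/
theorem cone_obs [IsTopologicalAddGroup P] [ContinuousSMul ℂ P] (y : W × (ι → ℂ))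
    (hy : y ∈ CC D j Z S) : j y.2 ∈ D.obs y.1 :=
  obs_of_lim h.ok j (h.dom.sub hy.1) ((h.dom.zero _ (h.dom.sub hy.1)).2 hy.1)
    ((mem_cone h c).1 hy).2

end Vale.Agent.P269L.G
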