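import Vale.Agent.P269L.G.Co
import Vale.Agent.P269L.H.An

/-!
# The special fibre of the deformation to the normal cone is analytic of the expected dimension
-/

set_option linter.unusedSectionVars false

namespace Vale.Agent.P269L.G

open Set Function Topology Filter Module P287Q.H3 P269 P269.Ch P269.Holo P269.Mono

variable {W E : Type} [NormedAddCommGroup W] [NormedSpace ℂ W] [NormedAddCommGroup E]
  [NormedSpace ℂ E] {M : Set (W × E)} {x : W} {ξ : E}

/-- the rescaled copies of `M` -/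
abbrev Grf (M : Set (W × E)) : Set ((W × E) × ℂ) :=
  {b | b.2 ≠ 0 ∧ (b.1.1, b.2 • b.1.2) ∈ M}

/-- the limit of the rescaled copies -/
abbrev Lim (M : Set (W × E)) : Set (W × E) := {y | (y, (0 : ℂ)) ∈ closure (Grf M)}

theorem an_scl (b : (W × E) × ℂ) :
    AnalyticAt ℂ (fun b : (W × E) × ℂ => (b.1.1, b.2 • b.1.2)) b :=
  (analyticAt_fst.comp analyticAt_fst).prod
    (analyticAt_snd.smul (analyticAt_snd.comp analyticAt_fst))

theorem scl_mem {b : (W × E) × ℂ} (h : b ∈ closure (Grf M)) :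
    (b.1.1, b.2 • b.1.2) ∈ closure M :=
  map_mem_closure (f := fun b : (W × E) × ℂ => (b.1.1, b.2 • b.1.2)) (by fun_prop) h
    fun _ e => e.2

theorem an_pre (h : An M (x, 0)) :
    An {b : (W × E) × ℂ | (b.1.1, b.2 • b.1.2) ∈ M} ((x, ξ), 0) :=
  An.preimage (an_scl _) (by simpa only [zero_smul] using h)

theorem scl_near (h : An M (x, 0)) : ∀ᶠ b in 𝓝 ((x, ξ), (0 : ℂ)), b ∈ closure (Grf M) →
    (b.1.1, b.2 • b.1.2) ∈ M :=
  (an_pre (ξ := ξ) h).closed_near.mono fun _ a e => a (closure_mono (fun _ k => k.2) e)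

theorem lim_near (h : An M (x, 0)) : ∀ᶠ y in 𝓝 (x, ξ), y ∈ Lim M → (y.1, (0 : E)) ∈ M :=
  ((Continuous.prodMk_left (0 : ℂ)).continuousAt.eventually (scl_near (ξ := ξ) h)).mono
    fun _ a e => by simpa only [zero_smul] using a e

theorem exists_seq {y : W × E} (h : y ∈ Lim M) : ∃ (z : ℕ → W × E) (c : ℕ → ℂ),
    Tendsto z atTop (𝓝 y) ∧ Tendsto c atTop (𝓝 0) ∧ ∀ n, c n ≠ 0 ∧ ((z n).1, c n • (z n).2) ∈ M := by
  obtain ⟨b, h1, h2⟩ := mem_closure_iff_seq_limit.1 h
  exact ⟨fun n => (b n).1, fun n => (b n).2, (continuous_fst.tendsto _).comp h2,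
    (continuous_snd.tendsto _).comp h2, h1⟩

variable [FiniteDimensional ℂ W] [FiniteDimensional ℂ E]

theorem an_clo (h : An M (x, 0)) : An (closure (Grf M)) ((x, ξ), 0) := by
  have e : Grf M = {b : (W × E) × ℂ | (b.1.1, b.2 • b.1.2) ∈ M} \ {b | b.2 = 0} :=
    Set.ext fun _ => and_comm
  rw [e]
  exact stClo _ _ _ _ (an_pre h) (an_zero analyticAt_snd)

theorem an_lim (h : An M (x, 0)) : An (Lim M) (x, ξ) :=
  An.preimage (f := fun y : W × E => (y, (0 : ℂ))) (analyticAt_id.prod analyticAt_const) (an_clo h)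

theorem small_grf {k : ℕ} (hs : Small k M) : Small (k + 2) (Grf M) := by
  have := FiniteDimensional.complete ℂ W
  have := FiniteDimensional.complete ℂ E
  have h1 := hs.prod (N := ℂ)
  rw [Complex.finrank_real_complex] at h1
  refine (Small.image (h1.mono (inter_subset_left (t := {b | b.2 ≠ 0})))
    (f := fun b : (W × E) × ℂ => ((b.1.1, b.2⁻¹ • b.1.2), b.2)) fun b hb => ?_).mono ?_
  · exact ((((analyticAt_fst.comp analyticAt_fst).prod ((analyticAt_snd.inv hb.2).smul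
      (analyticAt_snd.comp analyticAt_fst))).prod analyticAt_snd).contDiffAt (𝕜 := ℂ)
        (n := 1)).restrict_scalars ℝ
  · rintro ⟨⟨a, b⟩, c⟩ e
    exact ⟨((a, c • b), c), ⟨⟨e.2, trivial⟩, e.1⟩, by simp only [inv_smul_smul₀ e.1]⟩

theorem small_lim {k : ℕ} (h : An M (x, 0)) (hs : Small k M) :
    ∃ U ∈ 𝓝 (x, ξ), Small k (U ∩ Lim M) := by
  have := FiniteDimensional.complete ℂ W
  have := FiniteDimensional.complete ℂ E
  obtain ⟨U, h1, h2⟩ := P269L.H.drop _ (closure (Grf M)) (closure (Grf M) ∩ {b | b.2 = 0})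
    ((x, ξ), 0) k (an_clo h) ((an_clo h).inter (an_zero analyticAt_snd))
    (.of_forall fun _ e => closure_mono (s := Grf M)
      (fun _ a => mem_sdiff_of_mem (subset_closure a) fun b => a.1 b.2) e.1)
    ⟨_, scl_near h, (small_grf hs).mono fun _ e => ⟨fun a => e.2.2 ⟨e.2.1, a⟩, e.1 e.2.1⟩⟩
  exact ⟨_, (Continuous.prodMk_left (0 : ℂ)).continuousAt h1,
    (h2.image (f := Prod.fst) fun _ _ => contDiffAt_fst).mono fun y e =>
      ⟨(y, 0), ⟨e.1, e.2, rfl⟩, rfl⟩⟩

variable {A P : Type} [NormedRing A] [NormedAlgebra ℂ A] [AddCommGroup P] [Module ℂ P]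
  [TopologicalSpace P] [IsTopologicalAddGroup P] [ContinuousSMul ℂ P] {D : KD A W P}
  {act : A → W → W} {O : Set W} {v r : ℕ}

omit [FiniteDimensional ℂ W] in
/-- the limit lies in the obstruction spaces -/
theorem obs_of_lim (h : D.Ok act O v r) (j : E →ₗ[ℂ] P) (hx : x ∈ O) (hs : D.s x ∈ D.van x)
    (e : (x, ξ) ∈ Lim (Tx.Rp O (fun x => (D.van x : Set P)) D.s j)) : j ξ ∈ D.obs x := by
  obtain ⟨z, c, h1, -, h2⟩ := exists_seq e
  refine h.cone x hx hs _ (fun n => (z n).1) (fun n => (c n)⁻¹)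
    (fun n => -((c n)⁻¹ • (D.s (z n).1 - j (c n • (z n).2)))) (fun n => (h2 n).2.1)
    ((continuous_fst.tendsto _).comp h1)
    (fun n => neg_mem (Submodule.smul_mem _ _ (h2 n).2.2)) ?_
  refine ((j.continuous_of_finiteDimensional.tendsto _).comp
    ((continuous_snd.tendsto _).comp h1)).congr fun n => ?_
  rw [smul_sub, map_smul, inv_smul_smul₀ (h2 n).1]
  simp only [comp_apply, neg_sub, add_sub_cancel]

end Vale.Agent.P269L.G
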