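import Vale.Agent.P269L.Tx
import Vale.Agent.P269L.T.Gd

/-!
# The spaces of the cone construction in coordinates
-/

set_option linter.all false

namespace Vale.Agent.P269L

open Set Function Topology Filter Module P291Z P287Q.H3 P269 P269.Ch P269.Holo P269.Orb

section form

variable {W E : Type} [NormedAddCommGroup W] [NormedSpace ℂ W] [NormedAddCommGroup E]
  [NormedSpace ℂ E] {n : ℕ} {x : W} {q : W × E → ℂ} {M M' : Set (W × E)} {y : W × E}
  {f : W × E → ℂ}

/-- Forms are analytic along the whole fibre. -/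
theorem Tx.Form.an (h : Tx.Form n x q) (u : E) : AnalyticAt ℂ q (x, u) := by
  have a : Tendsto (fun t : ℂ => (x, t • u)) (𝓝[≠] 0) (𝓝 (x, 0)) :=
    (Continuous.tendsto' (by fun_prop) _ _ (by simp)).mono_left nhdsWithin_le_nhds
  obtain ⟨t, h1, h2⟩ := ((a.eventually h.1.eventually_analyticAt).and self_mem_nhdsWithin).exists
  have b : AnalyticAt ℂ (fun p : W × E => (t ^ n)⁻¹ * q (p.1, t • p.2)) (x, u) :=
    analyticAt_const.mul (h1.comp_of_eq (analyticAt_fst.prod (analyticAt_snd.const_smul)) rfl)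
  exact b.congr (.of_forall fun p => (congrArg _ (h.2 p.1 p.2 t)).trans
    (inv_mul_cancel_left₀ (pow_ne_zero n h2) _))

theorem Tx.Form.eventually (h : Tx.Form n x q) : ∀ᶠ x' in 𝓝 x, Tx.Form n x' q :=
  ((Continuous.prodMk_left (0 : E)).continuousAt.eventually h.1.eventually_analyticAt).mono
    fun _ a => ⟨a, h.2⟩

namespace G

theorem ini_an (h : f ∈ Tx.Ini M y) : AnalyticAt ℂ f y :=
  let ⟨_, _, _, a, _, _, b⟩ := h
  ((a.an y.2).comp_of_eq ((analyticAt_fst.prod analyticAt_const).prod analyticAt_snd) rfl).congr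
    b.symm

theorem ini_ev (h : f ∈ Tx.Ini M y) : ∀ᶠ y' in 𝓝 y, f ∈ Tx.Ini M y' := by
  obtain ⟨n, q, q', a, b, c, d⟩ := h
  have t : ContinuousAt (fun z : W × E => (z.1, (0 : E))) y := by fun_prop
  filter_upwards [t.eventually a.eventually, t.eventually b.eventually,
    t.eventually (eventually_nhds_nhdsWithin.2 c), d.eventuallyEq_nhds] with z a' b' c' d'
  exact ⟨n, q, q', a', b', c', d'⟩

theorem ini_congr (h : 𝓝[M] (y.1, 0) = 𝓝[M'] (y.1, 0)) : Tx.Ini M y = Tx.Ini M' y := by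
  simp only [Tx.Ini, h]

end G

end form

namespace G

theorem clo_of {W : Type} [NormedAddCommGroup W] {Z S : Set W} (e : Z ⊆ S)
    (h : IsClosed (Subtype.val ⁻¹' Z : Set S)) : Clo Z S :=
  let ⟨C, a, b⟩ := isClosed_induced_iff.1 h
  ⟨C, a, Set.ext fun x => ⟨fun c => ⟨e c, b.ge (show (⟨x, e c⟩ : S) ∈ _ from c)⟩,
    fun c => b.le (show (⟨x, c.1⟩ : S) ∈ _ from c.2)⟩⟩

variable {A W P E : Type} [NormedRing A] [NormedAlgebra ℂ A] [NormedAddCommGroup W]
  [NormedSpace ℂ W] [NormedAddCommGroup E] [NormedSpace ℂ E] [AddCommGroup P] [Module ℂ P]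
  [TopologicalSpace P]

/-- Coordinates on `P₀` and the action in these coordinates. -/
structure Crd (D : KD A W P) (j : E →ₗ[ℂ] P) (ρ' : A → E → E) : Prop where
  inj : Injective j
  rng : LinearMap.range j = D.P₀
  eqv : ∀ a u, IsUnit a → j (ρ' a u) = D.ρ a (j u)

/-- The representatives of the section. -/
abbrev RM (D : KD A W P) (j : E →ₗ[ℂ] P) (S : Set W) : Set (W × E) :=
  Tx.Rp S (fun x => (D.van x : Set P)) D.s j

/-- The total space. -/
abbrev TT (E : Type) (O : Set W) : Set (W × E) := O ×ˢ univ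

/-- The cone. -/
abbrev CC (D : KD A W P) (j : E →ₗ[ℂ] P) (Z S : Set W) : Set (W × E) := Tx.Cone Z (RM D j S)

/-- The data on the space of representatives. -/
def dM (D : KD A W P) (j : E →ₗ[ℂ] P) : KD A (W × E) P :=
  ⟨D.ρ, D.P₀, fun _ => ⊥, fun z => D.obs z.1, fun z => j z.2⟩

variable [FiniteDimensional ℂ A] [FiniteDimensional ℂ W] [FiniteDimensional ℂ E] {D : KD A W P}
  {act : A → W → W} {Z S O : Set W} {v r d : ℕ} {j : E →ₗ[ℂ] P} {ρ' : A → E → E}

theorem Crd.mem (c : Crd D j ρ') (u : E) : j u ∈ D.P₀ := c.rng.le ⟨u, rfl⟩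

theorem M_sub : RM D j O ⊆ TT E O := fun _ h => ⟨h.1, trivial⟩

variable (h : T.Kur D act Z S O v r d)
include h

theorem exists_crd : ∃ (n : ℕ) (j : (Fin n → ℂ) →ₗ[ℂ] P) (ρ' : A → (Fin n → ℂ) → Fin n → ℂ),
    Crd D j ρ' := by
  haveI := h.ok.fin
  let j := D.P₀.subtype ∘ₗ (finBasis ℂ D.P₀).equivFun.symm.toLinearMap
  have a : LinearMap.range j = D.P₀ :=
    (LinearMap.range_comp_of_range_eq_top _ (LinearEquiv.range _)).trans D.P₀.range_subtype
  exact ⟨_, j, fun s u => invFun j (D.ρ s (j u)), Subtype.val_injective.comp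
    (finBasis ℂ D.P₀).equivFun.symm.injective, a, fun s u hs =>
      invFun_eq (a.ge (h.ok.rep.mem s hs _ (a.le ⟨u, rfl⟩)))⟩

theorem C_sub : CC D j Z S ⊆ TT E O := fun _ a => ⟨h.dom.sub a.1, trivial⟩

theorem zero_mem {x : W} (hx : x ∈ O) : (x, (0 : E)) ∈ RM D j O ↔ x ∈ Z :=
  (and_iff_right hx).trans (by rw [map_zero, sub_zero]; exact h.dom.zero x hx)

theorem nhds_M {z : W × E} (hz : z.1 ∈ O) : 𝓝[RM D j S] z = 𝓝[RM D j O] z := by
  obtain ⟨U, a, b⟩ := h.dom.opn
  refine nhdsWithin_eq_iff_eventuallyEq.2 ?_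
  filter_upwards [continuous_fst.continuousAt (a.mem_nhds (b.le hz).2)] with y hy
  exact propext (and_congr_left' ⟨fun c => b.ge ⟨c, hy⟩, fun c => (b.le c).1⟩)

theorem ini_O {y : W × E} (hy : y.1 ∈ O) : Tx.Ini (RM D j S) y = Tx.Ini (RM D j O) y :=
  ini_congr (nhds_M h hy)

theorem cone_O : CC D j Z S = CC D j Z O :=
  Set.ext fun _ => and_congr_right fun a => by rw [ini_O h (h.dom.sub a)]

theorem ivtZ : Ivt act Z := fun a ha x hx => by
  have b := h.dom.sub hx
  refine (h.dom.zero _ (h.dom.isAct.mem a ha x b)).1 ?_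
  rw [h.ok.eqv x b a ha]
  exact h.ok.fam.inv x b a ha _ ((h.dom.zero x b).2 hx)

theorem closedZ : IsClosed (Subtype.val ⁻¹' Z : Set O) := by
  convert h.ok.fam.closed.preimage (f := fun x : O => (x, D.s x))
    (continuous_id.prodMk h.ok.cont.domRestrict) using 1
  exact Set.ext fun x => (h.dom.zero _ x.2).symm

theorem lcT : IsLocallyClosed (TT E O) := by
  rw [TT, prod_univ]
  exact h.cyc.lc.preimage continuous_fst

theorem mfdT {z : W × E} (hz : z ∈ TT E O) :
    MfdAt (TT E O) (finrank ℂ A + (d + finrank ℂ E)) z :=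
  add_assoc (finrank ℂ A) d _ ▸ (h.mfd hz.1).prod (MfdAt.univ z.2)

theorem cloC : Clo (CC D j Z S) (TT E O) := by
  refine clo_of (C_sub h) (isOpen_compl_iff.1 (isOpen_iff_mem_nhds.2 fun y hy => ?_))
  by_cases a : y.1.1 ∈ Z
  · obtain ⟨f, b, c⟩ : ∃ f ∈ Tx.Ini (RM D j S) y.1, f y.1 ≠ 0 := by
      by_contra! b
      exact hy ⟨a, b⟩
    filter_upwards [continuous_subtype_val.continuousAt.eventually (ini_ev b),
      continuous_subtype_val.continuousAt.eventually ((ini_an b).continuousAt.eventually_ne c)]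
      with z d1 d2 d3 using d2 (d3.2 f d1)
  · exact mem_of_superset ((((continuous_fst.comp continuous_subtype_val).subtype_mk
      fun z : TT E O => z.2.1).continuousAt) ((closedZ h).isOpen_compl.mem_nhds a))
      fun z b c => b c.1

theorem lcC : IsLocallyClosed (CC D j Z S) :=
  let ⟨_, a, b⟩ := cloC h (j := j)
  b ▸ (lcT h).inter a.isLocallyClosed

variable (c : Crd D j ρ')
include c

section rho

variable {a b : A} (ha : IsUnit a)
include ha

theorem rho_add (u w : E) : ρ' a (u + w) = ρ' a u + ρ' a w := c.inj (by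
  rw [map_add, c.eqv _ _ ha, c.eqv _ _ ha, c.eqv _ _ ha, map_add,
    h.ok.rep.add a ha _ (c.mem u) _ (c.mem w)])

theorem rho_smul (t : ℂ) (u : E) : ρ' a (t • u) = t • ρ' a u := c.inj (by
  rw [map_smul, c.eqv _ _ ha, c.eqv _ _ ha, map_smul, h.ok.rep.smul a ha _ _ (c.mem u)])

theorem rho_lin : IsLinearMap ℂ (ρ' a) := ⟨rho_add h c ha, rho_smul h c ha⟩

theorem rho_zero : ρ' a 0 = 0 := (rho_lin h c ha).map_zero

theorem rho_mul (hb : IsUnit b) (u : E) : ρ' (a * b) u = ρ' a (ρ' b u) := c.inj (by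
  rw [c.eqv _ _ (ha.mul hb), c.eqv _ _ ha, c.eqv _ _ hb, h.ok.rep.mul a b ha hb _ (c.mem u)])

theorem an_rho (u : E) : AnalyticAt ℂ (fun p : A × E => ρ' p.1 p.2) (a, u) := by
  haveI := FiniteDimensional.complete ℂ A
  let e := finBasis ℂ E
  choose Φ hΦ using fun k => (h.hol E j c.inj c.rng).rho (e k)
  refine (Finset.analyticAt_fun_sum (f := fun k (p : A × E) => e.coord k p.2 • Φ k p.1) Finset.univ
    fun k _ => (((e.coord k).toContinuousLinearMap.analyticAt _).comp analyticAt_snd).smul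
      ((hΦ k a ha).1.comp analyticAt_fst)).congr ?_
  filter_upwards [continuous_fst.continuousAt (Units.isOpen.mem_nhds ha)] with p hp
  refine Eq.trans ?_ (congrArg (ρ' p.1) (e.sum_repr p.2))
  refine Eq.trans ?_ (map_sum ((rho_lin h c hp).mk' _) _ _).symm
  exact Finset.sum_congr rfl fun k _ => ((rho_smul h c hp _ _).trans (congrArg _
    (c.inj ((c.eqv _ _ hp).trans (hΦ k _ hp).2.symm)))).symm

end rho

theorem rho_one (u : E) : ρ' 1 u = u :=
  c.inj ((c.eqv _ _ isUnit_one).trans (h.ok.rep.one _ (c.mem u)))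

theorem act_prod {B : Set W} (hB : IsAct act B) : IsAct (Tx.act2 act ρ') (TT E B) :=
  ⟨fun z hz => Prod.ext (hB.one _ hz.1) (rho_one h c _),
    fun a b ha hb z hz => Prod.ext (hB.mul a b ha hb _ hz.1) (rho_mul h c ha hb _),
    fun a ha _ hz => ⟨hB.mem a ha _ hz.1, trivial⟩, fun a ha z hz =>
      ((hB.an a ha _ hz.1).comp_of_eq (analyticAt_fst.prod (analyticAt_fst.comp analyticAt_snd))
        rfl).prod ((an_rho h c ha z.2).comp_of_eq (analyticAt_fst.prod
          (analyticAt_snd.comp analyticAt_snd)) rfl)⟩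

theorem actT : IsAct (Tx.act2 act ρ') (TT E O) := act_prod h c h.dom.isAct

theorem an_act {a : A} (ha : IsUnit a) {z : W × E} (hz : z.1 ∈ O) :
    AnalyticAt ℂ (Tx.act2 act ρ' a) z :=
  ((actT h c).an a ha z ⟨hz, trivial⟩).comp_of_eq (analyticAt_const.prod analyticAt_id) rfl

theorem actM : IsAct (Tx.act2 act ρ') (RM D j O) := (actT h c).mono M_sub fun a ha z hz =>
  ⟨h.dom.isAct.mem a ha _ hz.1, by
    obtain ⟨w, hw⟩ := c.rng.ge (h.ok.mem _ hz.1)
    have e := h.ok.fam.inv _ hz.1 a ha _ hz.2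
    rw [← hw, ← map_sub, ← c.eqv _ _ ha, (rho_lin h c ha).map_sub, map_sub, c.eqv _ _ ha, hw,
      ← h.ok.eqv _ hz.1 a ha] at e
    exact e⟩

theorem ini_act {a : A} (ha : IsUnit a) {y : W × E} (hy : y.1 ∈ O) {f : W × E → ℂ}
    (hf : f ∈ Tx.Ini (RM D j O) (Tx.act2 act ρ' a y)) :
    (fun z => f (Tx.act2 act ρ' a z)) ∈ Tx.Ini (RM D j O) y := by
  obtain ⟨n, q, q', a1, a2, a3, a4⟩ := hf
  have z0 := rho_zero h c ha
  have t := an_act h c ha (z := (y.1, 0)) hy
  have e : Tx.act2 act ρ' a (y.1, 0) = (act a y.1, 0) := Prod.ext rfl z0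
  have k : ∀ {m : ℕ} {p : (W × E) × E → ℂ}, Tx.Form m (act a y.1, (0 : E)) p →
      Tx.Form m (y.1, (0 : E)) fun w => p (Tx.act2 act ρ' a w.1, ρ' a w.2) := fun {m p} hp =>
    ⟨hp.1.comp_of_eq ((t.comp_of_eq analyticAt_fst rfl).prod ((an_rho h c ha 0).comp_of_eq
      (analyticAt_const.prod analyticAt_snd) rfl)) (Prod.ext e z0), fun z u s =>
        (congrArg (fun w => p (_, w)) (rho_smul h c ha s u)).trans (hp.2 _ _ s)⟩
  refine ⟨n, _, _, k a1, k a2, (t.continuousAt.continuousWithinAt.tendsto_nhdsWithin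
    fun z hz => (actM h c).mem a ha z hz).eventually (e ▸ a3), ?_⟩
  filter_upwards [(an_act h c ha hy).continuousAt.eventually a4] with z hz
  exact hz.trans (by simp only [Tx.act2, z0])

theorem actC : IsAct (Tx.act2 act ρ') (CC D j Z S) := (actT h c).mono (C_sub h) fun a ha y hy => by
  rw [cone_O h] at hy ⊢
  exact ⟨ivtZ h a ha _ hy.1, fun f hf => hy.2 _ (ini_act h c ha (h.dom.sub hy.1) hf)⟩

theorem orbT : haveI := actT h c; Orb Aˣ (Holo.Sp (Tx.act2 act ρ') (TT E O)) :=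
  haveI := actT h c
  haveI := h.dom.isAct
  haveI := FiniteDimensional.proper ℂ (W × E)
  haveI : LocallyCompactSpace (TT E O) := (lcT h).locallyCompactSpace
  haveI : Nice (Holo.Sp (Tx.act2 act ρ') (TT E O)) := ⟨inferInstance, inferInstance, inferInstance⟩
  h.dom.orb.of_map (f := fun z => Holo.Sp.of act z.val.1 z.val_mem.1)
    ((continuous_fst.comp Holo.Sp.continuous_val).subtype_mk _) fun _ _ => rfl

theorem orbC : haveI := actC h c; Orb Aˣ (Holo.Sp (Tx.act2 act ρ') (CC D j Z S)) :=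
  haveI := actT h c
  haveI := actC h c
  orb_mono (orbT h c) (C_sub h) (lcC h)

theorem mfdM {z : W × E} (hz : z ∈ RM D j O) : MfdAt (RM D j O) (finrank ℂ A + (d + v)) z := by
  haveI := FiniteDimensional.complete ℂ (W × E)
  have k := h.hol E j c.inj c.rng
  obtain ⟨Φ, a⟩ := k.sec
  let N : Set (W × E) := {y | y.1 ∈ O ∧ j y.2 ∈ D.van y.1}
  have b : (z.1, Φ z.1 - z.2) ∈ N := ⟨hz.1, by rw [map_sub, (a _ hz.1).2]; exact hz.2⟩
  have e : MfdAt N (finrank ℂ A + d + v) (z.1, Φ z.1 - z.2) :=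
    ⟨b, HolSub.isMfd (j := fun y : N => ((⟨y.1.1, y.2.1⟩ : O), y.1.2))
      ((IsEmbedding.subtypeVal.prodMap IsEmbedding.id).of_comp_iff.1 IsEmbedding.subtypeVal)
      (z := ⟨_, b⟩) (h.cyc.mfd _) (k.van _) (.of_forall fun p =>
        ⟨by rintro ⟨y, rfl⟩; exact y.2.2, fun f => ⟨⟨(p.1, p.2), p.1.2, f⟩, rfl⟩⟩)⟩
  have f : ∀ u : E, AnalyticAt ℂ (fun y : W × E => (y.1, Φ y.1 - y.2)) (z.1, u) := fun u =>
    analyticAt_fst.prod (((a _ hz.1).1.comp_of_eq (analyticAt_fst (p := (z.1, u))) rfl).sub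
      analyticAt_snd)
  have g := e.iso (S' := RM D j O) (f _) (f _)
    (.of_forall fun y hy => ⟨⟨hy.1, by
      rw [map_sub, (a _ hy.1).2, sub_sub_cancel]; exact hy.2⟩, Prod.ext rfl (sub_sub_cancel _ _)⟩)
    (.of_forall fun y hy => ⟨⟨hy.1, by
      rw [map_sub, (a _ hy.1).2]; exact hy.2⟩, Prod.ext rfl (sub_sub_cancel _ _)⟩)
  rwa [sub_sub_cancel, add_assoc] at g

theorem mfdS {z : W × E} (hz : z ∈ RM D j O) : MfdAt (RM D j S) (finrank ℂ A + (d + v)) z :=
  haveI := FiniteDimensional.complete ℂ (W × E)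
  (mfdM h c hz).congr ((nhdsWithin_eq_iff_eventuallyEq.1 (nhds_M h hz.1)).mono
    fun _ a => a.symm.to_iff)

theorem lcM : IsLocallyClosed (RM D j O) :=
  isLocallyClosed_of_mfd fun z => ⟨_, (mfdM h c z.2).2⟩

theorem orbM : haveI := actM h c; Orb Aˣ (Holo.Sp (Tx.act2 act ρ') (RM D j O)) :=
  haveI := actT h c
  haveI := actM h c
  orb_mono (orbT h c) M_sub (lcM h c)

theorem holOrbM : haveI := actM h c
    HolOrb Aˣ (Holo.Sp.val : Holo.Sp (Tx.act2 act ρ') (RM D j O) → W × E) (d + v) :=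
  haveI := actM h c
  holOrb_of_orb (orbM h c) fun z => (mfdM h c z.2).2

theorem cycM : Cyc (Tx.act2 act ρ') (RM D j O) (RM D j O) (d + v) := by
  refine ⟨⟨⟨(actM h c).mem, fun z => (mfdM h c z.2).2, fun z hz => ?_⟩, lcM h c, Subset.rfl,
    ⟨univ, isOpen_univ, (inter_univ _).symm⟩, diff_self.symm ▸ dimLt_empty _⟩, subset_closure⟩
  have k := h.hol E j c.inj c.rng
  obtain ⟨Φ, a⟩ := k.sec
  obtain ⟨l, b⟩ := k.van ⟨z.1, hz.1⟩
  obtain ⟨w, e⟩ := (b.mem.self_of_nhds (Φ z.1 - z.2)).1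
    (show j _ ∈ D.van z.1 by rw [map_sub, (a _ hz.1).2]; exact hz.2)
  have t : ContinuousAt (fun x : O => (x.1, Φ x.1 - l x w)) ⟨z.1, hz.1⟩ :=
    continuousAt_subtype_val.prodMk (((a _ hz.1).1.continuousAt.comp_of_eq
      continuousAt_subtype_val rfl).sub ((b.hol.cont continuousAt_subtype_val).clm_apply
        continuousAt_const))
  refine mem_closure_of_frequently_of_tendsto (((mem_closure_iff_frequently.1
    (dense_sp (act := act) (D := {x | Fre act x}) h.cyc.free (⟨z.1, hz.1⟩ : O))).and_eventually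
      b.mem).mono fun x hx => ⟨⟨x.2, ?_⟩, fun s hs f => hx.1 s hs (congrArg Prod.fst f)⟩)
    (t.tendsto.trans (by simp only [e, sub_sub_cancel, le_refl]))
  rw [map_sub, (a _ x.2).2, sub_sub_cancel]
  exact (hx.2 _).2 ⟨w, rfl⟩

variable [IsTopologicalAddGroup P] [ContinuousSMul ℂ P]

theorem cloM : Clo (RM D j O) (TT E O) := by
  have a : Continuous fun z : TT E O => (⟨z.1.1, z.2.1⟩ : O) :=
    (continuous_fst.comp continuous_subtype_val).subtype_mk _
  refine clo_of M_sub ?_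
  convert h.ok.fam.closed.preimage (a.prodMk ((h.ok.cont.domRestrict.comp a).sub
    (j.continuous_of_finiteDimensional.comp (continuous_snd.comp continuous_subtype_val)))) using 1
  exact Set.ext fun z => and_iff_right z.2.1

/-- **The space of representatives with the tautological section is a good chart.** -/
theorem kurM [T2Space P] : T.Kur (dM D j) (Tx.act2 act ρ') (Z ×ˢ {0}) (RM D j O) (RM D j O) 0
    (v + r) (d + v) := by
  have z0 : ∀ z ∈ RM D j O, j z.2 ∈ (⊥ : Submodule ℂ P) → z.2 = 0 ∧ D.s z.1 ∈ D.van z.1 :=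
    fun z hz e => ⟨c.inj (e.trans j.map_zero.symm), by
      have := hz.2
      rwa [show j z.2 = 0 from e, sub_zero] at this⟩
  have z1 : Z ×ˢ {0} ⊆ RM D j O := by
    rintro ⟨x, _⟩ ⟨a, rfl⟩
    exact (zero_mem h (h.dom.sub a)).2 a
  have cj := j.continuous_of_finiteDimensional
  have c1 : Continuous fun z : RM D j O => (⟨z.1.1, z.2.1⟩ : O) :=
    (continuous_fst.comp continuous_subtype_val).subtype_mk _
  refine ⟨⟨z1, ⟨univ, isOpen_univ, (inter_univ _).symm⟩, actM h c, orbM h c, fun z hz =>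
    ⟨fun e => ⟨(h.dom.zero _ hz.1).1 (z0 z hz e).2, (z0 z hz e).1⟩,
      fun e => (congrArg j e.2).trans j.map_zero⟩⟩,
    ⟨h.ok.fin, h.ok.rep, ⟨fun _ _ => bot_le, isClosed_eq continuous_snd continuous_const,
      fun _ _ => finrank_bot ℂ P, fun _ _ a ha q hq => ?_⟩, fun z _ => c.mem _,
      (cj.comp continuous_snd).continuousOn, fun z _ a ha => c.eqv a _ ha, ?_,
      fun z hz e => (h.ok.obs_rank _ hz.1 (z0 z hz e).2).trans (zero_add _).symm,
      fun z hz e => h.ok.obs_inv _ hz.1 (z0 z hz e).2, fun _ _ _ => bot_le,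
      fun z hz e => h.ok.obs_le _ hz.1 (z0 z hz e).2, fun z hz e w y t u a1 a2 a3 a4 =>
        h.ok.cone _ hz.1 (z0 z hz e).2 w (fun n => (y n).1) t
          (fun n => -t n • (D.s (y n).1 - j (y n).2)) (fun n => (a1 n).1)
          ((continuous_fst.tendsto z).comp a2) (fun n => Submodule.smul_mem _ _ (a1 n).2)
          (a4.congr fun n => ?_)⟩, cycM h c, actM h c, fun _ _ => bot_le, ?_,
    fun V _ _ _ i hi hr => ?_⟩
  · have e := c.eqv a 0 ha
    rw [rho_zero h c ha, j.map_zero] at e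
    exact (congrArg (D.ρ a) hq).trans e.symm
  · convert (isClosed_eq (cj.comp (continuous_snd.comp (continuous_subtype_val.comp
      continuous_fst))) (continuous_const (y := 0))).inter (h.ok.obs_closed.preimage
        (c1.prodMap continuous_id)) using 1
    exact Set.ext fun z => and_congr_right fun e => (and_iff_right (z0 _ z.1.2 e).2).symm
  · rw [show u n = 0 from a3 n, add_zero, neg_smul, smul_sub, neg_sub, add_sub_cancel]
    rfl
  · haveI := h.cpt
    refine Surjective.compactSpace (X := Quo act Z)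
      (f := Quot.map (fun x => ⟨(x.1, 0), x.2, rfl⟩) fun x y ⟨a, ha, e⟩ =>
        ⟨a, ha, Prod.ext e (rho_zero h c ha).symm⟩) (continuous_quot_lift _ (continuous_quot_mk.comp
          ((continuous_subtype_val.prodMk continuous_const).subtype_mk _))) ?_
    rintro ⟨z⟩
    exact ⟨Quot.mk _ ⟨z.1.1, z.2.1⟩, congrArg (Quot.mk _) (Subtype.ext (Prod.ext rfl z.2.2.symm))⟩
  · have k := h.hol V i hi hr
    obtain ⟨g, hg⟩ := i.exists_leftInverse_of_injective (LinearMap.ker_eq_bot.2 hi)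
    refine ⟨k.rho, ⟨fun z => g (j z.2), fun z _ => ⟨((g ∘ₗ j).toContinuousLinearMap.analyticAt
      _).comp analyticAt_snd, ?_⟩⟩, fun z => ⟨fun _ => 0, HolAt.const _,
        fun _ _ _ => Subsingleton.elim _ _, .of_forall fun _ w => ⟨fun e =>
          ⟨0, (hi (e.trans i.map_zero.symm)).symm⟩, ?_⟩⟩, fun z => ?_⟩
    · obtain ⟨w, hw⟩ := hr.ge (c.mem z.2)
      exact (congrArg (fun u => i (g u)) hw.symm).trans
        ((congrArg i (LinearMap.congr_fun hg w)).trans hw)
    · rintro ⟨_, rfl⟩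
      exact i.map_zero
    · rw [zero_add]
      exact HolSub.pull (u := fun y : (Z ×ˢ {0} : Set (W × E)) => (⟨y.1.1, y.2.1⟩ : Z))
        (k.obs ⟨z.1.1, z.2.1⟩)
        ((continuous_fst.comp continuous_subtype_val).subtype_mk _).continuousAt
        ⟨Prod.fst, analyticAt_fst, .of_forall fun _ => rfl⟩ (.of_forall fun _ _ => Iff.rfl)

end G

end Vale.Agent.P269L
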