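import Vale.Agent.P269L.G.Pure
import Vale.Agent.P269L.G.As
import Vale.Agent.P269L.U.Txt

/-!
# The cone of a good chart: support, dimension and multiplicity at smooth points
-/

set_option linter.all false

namespace Vale.Agent.P269L.G

open Set Function Topology Filter Module P291Z P287Q.H3 P269 P269.Ch P269.Holo P269.Orb

section loc

variable {W ι : Type} [NormedAddCommGroup W] [NormedSpace ℂ W] [FiniteDimensional ℂ W] [Fintype ι]
  {M C : Set (W × (ι → ℂ))} {y : W × (ι → ℂ)} {n k : ℕ}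

/-- The multiplicity at a smooth point of the support of the cone. -/
theorem mul_ex (hM : MfdAt M n (y.1, 0)) (hCB : ∀ᶠ z in 𝓝 y, z ∈ C ↔ (z, (0 : ℂ)) ∈ D.BM M)
    (hC : MfdAt C k y) : ∃ N : ℕ, 0 < N ∧ ∀ m, Tx.Mul M y m ↔ m = N := by
  obtain ⟨p, q, h⟩ := D.par_of_mfd hC
  obtain ⟨ρ, h1, h2⟩ := D.rho_ex hM y.2
  obtain ⟨N, h3, -, -, h4, -⟩ := L.count' (x := (y, (0 : ℂ))) (w := fun b => q b.1)
    (s := fun u => (p u, (0 : ℂ))) (D.an_BM hM y.2) (h.qa.comp_of_eq analyticAt_fst rfl)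
    analyticAt_snd rfl (.of_forall fun _ => D.dense_BM)
    ((h.q0.symm ▸ h.pa : AnalyticAt ℂ p (q y)).prod analyticAt_const)
    (Prod.ext (show p (q y) = y from h.q0.symm ▸ h.p0) rfl)
    (show ∀ᶠ u in 𝓝 (q y), _ from h.q0.symm ▸ by
      filter_upwards [h.ev_mem, h.qp, (h.tp.mono_right nhdsWithin_le_nhds).eventually hCB]
        with u a b c using ⟨c.1 a, rfl, b⟩)
    (by
      filter_upwards [(continuous_fst.tendsto (y, (0 : ℂ))).eventually
        (hCB.and (eventually_nhdsWithin_iff.1 h.pq))] with z a b c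
      have e : (z.1, (0 : ℂ)) = z := Prod.ext rfl c.symm
      exact Prod.ext (a.2 (a.1.2 (e.symm ▸ b))).symm c) ρ h1 h2
  exact ⟨N, h3, h4⟩

end loc

variable {A W P ι : Type} [NormedRing A] [NormedAlgebra ℂ A] [NormedAddCommGroup W]
  [NormedSpace ℂ W] [Fintype ι] [AddCommGroup P] [Module ℂ P] [TopologicalSpace P]
  [FiniteDimensional ℂ A] [FiniteDimensional ℂ W] {D : KD A W P} {act : A → W → W} {Z S O : Set W}
  {v r d : ℕ} {j : (ι → ℂ) →ₗ[ℂ] P} {ρ' : A → (ι → ℂ) → ι → ℂ} {y : W × (ι → ℂ)} {k : ℕ}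
  (h : T.Kur D act Z S O v r d) (c : Crd D j ρ')
include h c

theorem cc_ev (hy : y.1 ∈ Z) :
    ∀ᶠ z in 𝓝 y, z ∈ CC D j Z S ↔ (z, (0 : ℂ)) ∈ P269L.D.BM (RM D j O) :=
  (near_cone h c hy y.2).mono fun _ a => a.symm

/-- **Purity of the cone.** -/
theorem cc_dim (hy : MfdAt (CC D j Z S) k y) : k = finrank ℂ A + (d + v) :=
  pure_BM (mfdZ h c hy.mem.1) (P269L.D.an_BM (mfdZ h c hy.mem.1) y.2)
    (cc_ev h c hy.mem.1) hy

theorem slice_dim {φ : (Fin k → ℂ) → Holo.Sp (Tx.act2 act ρ') (CC D j Z S)}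
    (hφ : haveI := actC h c; IsSlice Aˣ Holo.Sp.val φ) : k = d + v :=
  haveI := actC h c
  haveI := (orbC h c).proper
  haveI := FiniteDimensional.proper ℂ (W × (ι → ℂ))
  haveI : LocallyCompactSpace (CC D j Z S) := (lcC h).locallyCompactSpace
  add_left_cancel (cc_dim h c (U.mfd_of_slice (orbC h c).finite_stabilizer hφ))

theorem cc_mul (hy : MfdAt (CC D j Z S) k y) :
    ∃ N : ℕ, 0 < N ∧ ∀ m, Tx.Mul (RM D j S) y m ↔ m = N := by
  rw [show Tx.Mul (RM D j S) y = Tx.Mul (RM D j O) y from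
    congrArg _ (ini_O h (h.dom.sub hy.mem.1))]
  exact mul_ex (mfdZ h c hy.mem.1) (cc_ev h c hy.mem.1) hy

theorem mul_unique (hy : MfdAt (CC D j Z S) k y) {z z' : ℂ} (a : Tx.Mul (RM D j S) y z)
    (b : Tx.Mul (RM D j S) y z') : z = z' :=
  let ⟨_, _, e⟩ := cc_mul h c hy
  ((e z).1 a).trans ((e z').1 b).symm

end Vale.Agent.P269L.G
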