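import Vale.Agent.P269L.G.Red
import Vale.Agent.P269L.G.Mul
import Vale.Agent.P269L.V.Main
import Vale.Agent.P269L.D.Mf

/-!
# The limit class is the cycle of the normal cone
-/

set_option linter.all false

namespace Vale.Agent.P269L.G

open Set Function Topology Filter Module P291Z P269 P269.Ch P269.Holo P269.Orb

variable {A W P ι : Type} [NormedRing A] [NormedAlgebra ℂ A] [NormedAddCommGroup W]
  [NormedSpace ℂ W] [AddCommGroup P] [Module ℂ P] [TopologicalSpace P] [Fintype ι]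
  [FiniteDimensional ℂ A] [FiniteDimensional ℂ W] {D : KD A W P} {act : A → W → W}
  {Z S O : Set W} {v r d : ℕ} (h : T.Kur D act Z S O v r d) {j : (ι → ℂ) →ₗ[ℂ] P}
  {ρ' : A → (ι → ℂ) → ι → ℂ} (c : Crd D j ρ')
include h c

theorem cy_lim (f : Df act ρ' O (RM D j O) (CC D j Z S)) : haveI := actC h c; haveI := actM h c
    U.Cy (Tx.act2 act ρ') (CC D j Z S) (Tx.Mul (RM D j S))
      (f.lm (fnd (Tx.act2 act ρ') (RM D j O) (d + v))) := by
  haveI := actC h c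
  haveI := actM h c
  haveI := actT h c
  haveI := f.niceT
  haveI := f.niceM
  haveI := FiniteDimensional.complete ℂ (W × (ι → ℂ))
  have hM := holOrbM h c
  refine ⟨d + v, f.lm_deg (hM.deg isQuo_sp), fun k φ hφ => ?_⟩
  obtain rfl := slice_dim h c hφ
  have y := (φ 0).val_mem
  have m := mfdZ h c y.1
  obtain ⟨e, τ, gc⟩ := V.gc_sp (orbT h c) (Holo.Sp.incl _ f.subC (φ 0))
  obtain ⟨w, s, a1, a2, a3, a4, a5, -, a6⟩ := V.vl_lm (B := P269L.D.BM (RM D j O)) (orbT h c)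
    isQuo_sp Holo.Sp.isEmbedding_val holAt_sp hM isQuo_sp (fun _ => hM.val isQuo_sp) isQuo_sp
    (Holo.Sp.isEmbedding_incl f.subC) (fun _ _ => rfl) (fun _ => rfl) f.dg
    (g := fun s => f.g (sc s)) (.of_forall fun s => ⟨f.g_cont _, f.g_inj (sc_ne s), f.g_smul _,
      fun _ => rfl, f.g_hol _, f.g_hol' (sc_ne s)⟩) tendsto_eps hφ gc (by
      filter_upwards [continuousAt_fst.eventually (near_cone h c y.1 (φ 0).val.2),
        (P269L.D.mem_BM m (φ 0).val.2)] with b b1 b2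
      refine ⟨fun e0 => ?_, fun s e0 e1 => ?_⟩
      · rw [show b = (b.1, 0) from Prod.ext rfl e0, b1]
        exact ⟨fun k => ⟨Holo.Sp.of _ _ k, rfl⟩, fun ⟨x, k⟩ => k ▸ x.val_mem⟩
      · rw [b2.2 (e0 ▸ e1), P269L.D.sc, e0]
        refine ⟨fun k => ⟨Holo.Sp.of _ _ k, Prod.ext rfl (smul_inv_smul₀ (sc_ne s) _)⟩, ?_⟩
        rintro ⟨x, k⟩
        rw [← k, f.val_g, inv_smul_smul₀ (sc_ne s)]
        exact x.val_mem)
  obtain ⟨ρ, r1, r2⟩ := P269L.D.rho_ex m (φ 0).val.2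
  obtain ⟨N, -, -, -, n1, n2⟩ := L.count' (P269L.D.an_BM m (φ 0).val.2) a1 analyticAt_snd rfl
    (.of_forall fun _ => P269L.D.dense_BM) a2 a3 a4 a5 ρ r1 r2
  refine ⟨rfl, _, a6 N n2, ?_⟩
  rw [show Tx.Mul (RM D j S) (φ 0).val = Tx.Mul (RM D j O) (φ 0).val from
    congrArg _ (ini_O h (h.dom.sub y.1))]
  haveI := (orbC h c).finite_stabilizer (φ 0)
  exact (n1 _).2 (div_mul_cancel₀ _ (Nat.cast_ne_zero.2 Nat.card_pos.ne'))

end Vale.Agent.P269L.G
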