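import Vale.Agent.P269L.Tx
import Vale.Agent.P269L.Lim.Gy
import Vale.Agent.P269.Map.W

set_option linter.unusedSectionVars false

/-!
# The deformation to the normal cone in coordinates: the limit class and its Gysin pull-back
-/

namespace Vale.Agent.P269L.G

open Set Function Topology Filter Bornology P291Z P269 P269.Orb P269.Ch

theorem exists_cpt {G T X : Type} [Group G] [TopologicalSpace G] [TopologicalSpace T]
    [TopologicalSpace X] [MulAction G T] [LocallyCompactSpace T] {π : T → X} (h : IsQuo G π)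
    {C : Set X} (hC : IsCompact C) : ∃ K, IsCompact K ∧ C ⊆ π '' K := by
  refine hC.induction_on (p := fun C => ∃ K, IsCompact K ∧ C ⊆ π '' K)
    ⟨∅, isCompact_empty, empty_subset _⟩ (fun _ _ h ⟨K, h1, h2⟩ => ⟨K, h1, h.trans h2⟩)
    (fun _ _ ⟨K, h1, h2⟩ ⟨K', h3, h4⟩ =>
      ⟨K ∪ K', h1.union h3, by rw [image_union]; exact union_subset_union h2 h4⟩) fun x _ => ?_
  obtain ⟨t, rfl⟩ := h.surj x
  obtain ⟨K, h1, h2⟩ := exists_compact_mem_nhds t
  exact ⟨_, mem_nhdsWithin_of_mem_nhds (h.isOpenMap.image_mem_nhds h2), K, h1, Subset.rfl⟩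

/-- Two degenerations that correspond under a map have the same limit. -/
theorem lm_eq {X X' Y C T T' : Type} [TopologicalSpace X] [TopologicalSpace X'] [TopologicalSpace Y]
    [TopologicalSpace C] [TopologicalSpace T] [TopologicalSpace T'] [Nice X] [Nice X'] [Nice Y]
    {l : Filter T} {l' : Filter T'} {γ : T' → Y → X} {γ' : T' → Y → X'} {i : C → X} {i' : C → X'}
    {τ : T → T'} (h : Dg l (fun s => γ (τ s)) i) (h' : Dg l' γ' i') (hτ : Tendsto τ l l')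
    {q : X' → X} (hq : Continuous q) (h1 : ∀ z, q (i' z) = i z) (h2 : ∀ s y, q (γ' s y) = γ s y)
    (h3 : ∀ K, IsCompact K → ∃ K', IsCompact K' ∧ ∀ᶠ s in l', ∀ y, γ s y ∈ K → γ' s y ∈ K')
    (β : BM Y) : h.lm β = h'.lm β := by
  have := h.ne
  refine ext_near h.emb isOpen_univ (subset_univ _) fun a ha _ => ?_
  obtain ⟨K, h4, h5⟩ := h3 _ ha.1
  obtain ⟨s, e1, -, e2⟩ := ((h.ev_lm β ha).and (hτ.eventually (h'.ev_lm' β (a := pull q a)
    (h4.union ((h.emb.isCompact_preimage ha.1).image h'.emb.continuous))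
    (fun z e => .inr ⟨z, (congrArg (· ∈ supp a) (h1 z)).mp (supp_pull hq a e), rfl⟩)
    (h5.mono fun s hs y e => .inl (hs y (h2 s y ▸ supp_pull hq a e))) fun z => by
      rw [δ_pull]
      exact Van.pull hq.continuousAt (h1 z ▸ ha.2 z)))).exists
  rw [pull_pull, pull_pull, show q ∘ i' = i from funext h1, show q ∘ _ = _ from funext (h2 _)] at e2
  exact e1.trans e2.symm

/-- The scaling factor. -/
noncomputable def sc (t : ℝ) : ℂ := (max 1 t : ℝ)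

theorem continuous_sc : Continuous sc :=
  Complex.continuous_ofReal.comp (continuous_const.max continuous_id)

theorem one_le_sc (t : ℝ) : 1 ≤ ‖sc t‖ :=
  (le_max_left 1 t).trans ((le_abs_self _).trans (Complex.norm_real _).ge)

theorem sc_ne (t : ℝ) : sc t ≠ 0 := norm_pos_iff.1 (one_pos.trans_le (one_le_sc t))

theorem tendsto_sc : Tendsto sc atTop (cobounded ℂ) :=
  tendsto_norm_atTop_iff_cobounded.1 (tendsto_atTop_mono (fun t => (le_max_right 1 t).trans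
    ((le_abs_self _).trans (Complex.norm_real _).ge)) tendsto_id)

theorem tendsto_eps : Tendsto (fun t => (sc t)⁻¹) atTop (𝓝[≠] 0) :=
  tendsto_inv₀_cobounded'.comp tendsto_sc

variable {A W E P : Type} [NormedRing A] [NormedAlgebra ℂ A] [NormedAddCommGroup W]
  [NormedSpace ℂ W] [NormedAddCommGroup E] [NormedSpace ℂ E] [AddCommGroup P] [Module ℂ P]
  [TopologicalSpace P]

/-- The total space of the deformation. -/
abbrev DB (M : Set (W × E)) : Set ((W × E) × ℂ) :=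
  closure {b : (W × E) × ℂ | b.2 ≠ 0 ∧ (b.1.1, b.2 • b.1.2) ∈ M}

/-- Closed invariant parts `M`, `C` of `O × E` such that `C` contains the limits of the multiples
of `M`. -/
structure Df (act : A → W → W) (ρ' : A → E → E) (O : Set W) (M C : Set (W × E)) : Prop where
  actT : Holo.IsAct (Tx.act2 act ρ') (O ×ˢ univ)
  actM : Holo.IsAct (Tx.act2 act ρ') M
  actC : Holo.IsAct (Tx.act2 act ρ') C
  orbT : Orb Aˣ (Holo.Sp (Tx.act2 act ρ') (O ×ˢ univ))
  cloM : Clo M (O ×ˢ univ)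
  cloC : Clo C (O ×ˢ univ)
  lin : ∀ a, IsUnit a → ∀ (c : ℂ) u, ρ' a (c • u) = c • ρ' a u
  lim : ∀ y, (y.1, 0) ∈ M → (y, 0) ∈ DB M → y ∈ C

theorem Clo.sub {V : Type} [NormedAddCommGroup V] [NormedSpace ℂ V] {Z S : Set V} (h : Clo Z S) :
    Z ⊆ S := h.elim fun _ e => e.2 ▸ inter_subset_left

theorem Clo.emb {V : Type} [NormedAddCommGroup V] [NormedSpace ℂ V] {Z S : Set V} (h : Clo Z S)
    (act : A → V → V) : IsClosedEmbedding (Holo.Sp.incl act (Clo.sub h)) := by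
  refine ⟨Holo.Sp.isEmbedding_incl _, ?_⟩
  obtain ⟨F, h1, h2⟩ := id h
  convert h1.preimage (Holo.Sp.continuous_val (act := act) (S := S)) using 1
  exact Set.ext fun x => (Holo.Sp.mem_range_incl _).trans (by
    rw [h2]; exact and_iff_right x.val_mem)

namespace Df

variable {act : A → W → W} {ρ' : A → E → E} {O : Set W} {M C : Set (W × E)}
  (h : Df act ρ' O M C)
include h

theorem subM : M ⊆ O ×ˢ univ := Clo.sub h.cloM

theorem subC : C ⊆ O ×ˢ univ := Clo.sub h.cloC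

theorem orb {N : Set (W × E)} (hN : Clo N (O ×ˢ univ)) [Holo.IsAct (Tx.act2 act ρ') N] :
    Orb Aˣ (Holo.Sp (Tx.act2 act ρ') N) :=
  haveI := h.actT
  haveI := h.orbT.nice
  have e := Clo.emb hN (Tx.act2 act ρ')
  haveI := Nice.of_isEmbedding e.isEmbedding e.isClosed_range.isLocallyClosed
  h.orbT.of_map e.continuous fun _ _ => rfl

theorem orbM : haveI := h.actM; Orb Aˣ (Holo.Sp (Tx.act2 act ρ') M) :=
  haveI := h.actM; h.orb h.cloM

theorem orbC : haveI := h.actC; Orb Aˣ (Holo.Sp (Tx.act2 act ρ') C) :=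
  haveI := h.actC; h.orb h.cloC

theorem niceT : Nice (Quo (Tx.act2 act ρ') (O ×ˢ univ)) := haveI := h.actT; isQuo_sp.nice h.orbT

theorem niceM : Nice (Quo (Tx.act2 act ρ') M) := haveI := h.actM; isQuo_sp.nice h.orbM

theorem niceC : Nice (Quo (Tx.act2 act ρ') C) := haveI := h.actC; isQuo_sp.nice h.orbC

theorem embC : IsClosedEmbedding (Quo.incl (Tx.act2 act ρ') h.subC) :=
  haveI := h.actT
  haveI := h.actC
  isQuo_sp.isClosedEmbedding isQuo_sp (Clo.emb h.cloC _) (fun _ _ => rfl) fun _ => rfl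

theorem mem_M {b : (W × E) × ℂ} (hy : b.1.1 ∈ O) (e : b ∈ DB M) : (b.1.1, b.2 • b.1.2) ∈ M :=
  let ⟨F, h1, h2⟩ := h.cloM
  h2.ge ⟨⟨hy, trivial⟩, closure_minimal (t := {b : (W × E) × ℂ | (b.1.1, b.2 • b.1.2) ∈ F})
    (fun _ hb => (h2.le hb.2).2) (h1.preimage (by fun_prop)) e⟩

theorem zero_mem {y : W × E} (hy : y.1 ∈ O) (e : (y, 0) ∈ DB M) : (y.1, 0) ∈ M :=
  zero_smul ℂ y.2 ▸ h.mem_M (b := (y, 0)) hy e

theorem lim' {y : W × E} (hy : y.1 ∈ O) (e : (y, 0) ∈ DB M) : y ∈ C := h.lim y (h.zero_mem hy e) e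

/-- Scaling of the second coordinate. -/
def g (c : ℂ) (m : Holo.Sp (Tx.act2 act ρ') M) : Holo.Sp (Tx.act2 act ρ') (O ×ˢ univ) :=
  Holo.Sp.of _ (m.val.1, c • m.val.2) ⟨(h.subM m.val_mem).1, trivial⟩

theorem val_g (c : ℂ) (m : Holo.Sp (Tx.act2 act ρ') M) :
    (h.g c m).val = (m.val.1, c • m.val.2) := rfl

theorem g_cont₂ : Continuous fun p : ℂ × Holo.Sp (Tx.act2 act ρ') M => h.g p.1 p.2 :=
  have := (Holo.Sp.continuous_val (act := Tx.act2 act ρ') (S := M)).comp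
    (continuous_snd (X := ℂ))
  (this.fst.prodMk (continuous_fst.smul this.snd)).subtype_mk _

theorem g_cont (c : ℂ) : Continuous (h.g c) := h.g_cont₂.comp (Continuous.prodMk_right c)

theorem g_inj {c : ℂ} (hc : c ≠ 0) : Injective (h.g c) := fun _ _ e =>
  Holo.Sp.ext (Prod.ext (congrArg (·.val.1) e) (smul_right_injective E hc (congrArg (·.val.2) e)))

theorem g_smul (c : ℂ) (a : Aˣ) (m : Holo.Sp (Tx.act2 act ρ') M) :
    haveI := h.actT; haveI := h.actM; h.g c (a • m) = a • h.g c m :=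
  Holo.Sp.ext (Prod.ext rfl (h.lin _ a.isUnit c _).symm)

theorem g_hol (c : ℂ) (m : Holo.Sp (Tx.act2 act ρ') M) :
    Holo.HolAt Holo.Sp.val (fun x => (h.g c x).val) m :=
  ⟨fun y => (y.1, c • y.2), analyticAt_fst.prod (analyticAt_snd.const_smul (c := c)),
    .of_forall fun _ => rfl⟩

theorem g_hol' {c : ℂ} (hc : c ≠ 0) (m : Holo.Sp (Tx.act2 act ρ') M) :
    Holo.HolAt (fun x => (h.g c x).val) Holo.Sp.val m :=
  ⟨fun y => (y.1, c⁻¹ • y.2), analyticAt_fst.prod (analyticAt_snd.const_smul (c := c⁻¹)),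
    .of_forall fun _ => Prod.ext rfl (inv_smul_smul₀ hc _).symm⟩

theorem mem_range_g {c : ℂ} (hc : c ≠ 0) {u : Holo.Sp (Tx.act2 act ρ') (O ×ˢ univ)} :
    u ∈ range (h.g c) ↔ (u.val.1, c⁻¹ • u.val.2) ∈ M :=
  ⟨by rintro ⟨m, rfl⟩; rw [val_g, inv_smul_smul₀ hc]; exact m.val_mem,
    fun e => ⟨Holo.Sp.of _ _ e, Holo.Sp.ext (Prod.ext rfl (smul_inv_smul₀ hc _))⟩⟩

/-- The induced map of orbit spaces. -/
def gq (c : ℂ) : Quo (Tx.act2 act ρ') M → Quo (Tx.act2 act ρ') (O ×ˢ univ) :=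
  Quot.map (h.g c) fun _ _ ⟨a, h1, h2⟩ => ⟨a, h1, Prod.ext (congrArg Prod.fst h2 :)
    ((congrArg (c • ·.2) h2).trans (h.lin a h1 c _).symm)⟩

theorem gq_mk (c : ℂ) (m : Holo.Sp (Tx.act2 act ρ') M) : h.gq c m.mk = (h.g c m).mk := rfl

theorem gq_eq {c : ℂ} {y : Quo (Tx.act2 act ρ') M} {u : Holo.Sp (Tx.act2 act ρ') (O ×ˢ univ)}
    (e : h.gq c y = u.mk) : ∃ m, m.mk = y ∧ h.g c m = u := by
  have := h.actT
  have := h.actM
  obtain ⟨m, rfl⟩ := Holo.Sp.surjective_mk y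
  obtain ⟨a, rfl⟩ := Holo.Sp.mk_eq_iff.1 ((h.gq_mk c m).symm.trans e)
  exact ⟨a • m, Holo.Sp.mk_smul a m, h.g_smul c a m⟩

theorem prop (K : Set (Quo (Tx.act2 act ρ') (O ×ˢ univ))) (hK : IsCompact K) :
    ∃ L, IsCompact L ∧ ∀ c : ℂ, 1 ≤ ‖c‖ → ∀ y, h.gq c y ∈ K → y ∈ L := by
  have := h.actT
  have := h.orbT.nice
  obtain ⟨K', h1, h2⟩ := exists_cpt isQuo_sp hK
  have h3 := (Holo.Sp.continuous_val (act := Tx.act2 act ρ') (S := O ×ˢ univ)).comp
    (continuous_snd (X := ℂ))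
  let F : ℂ × Holo.Sp (Tx.act2 act ρ') (O ×ˢ univ) → Holo.Sp (Tx.act2 act ρ') (O ×ˢ univ) :=
    fun p => Holo.Sp.of _ (p.2.val.1, p.1 • p.2.val.2) ⟨p.2.val_mem.1, trivial⟩
  have h4 : Continuous F := (h3.fst.prodMk (continuous_fst.smul h3.snd)).subtype_mk _
  refine ⟨_, ((Clo.emb h.cloM _).isCompact_preimage
    (((isCompact_closedBall (0 : ℂ) 1).prod h1).image h4)).image Holo.Sp.continuous_mk,
    fun c hc y hy => ?_⟩
  obtain ⟨u, h5, h6⟩ := h2 hy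
  obtain ⟨m, rfl, rfl⟩ := h.gq_eq h6.symm
  exact ⟨m, ⟨(c⁻¹, _), ⟨mem_closedBall_zero_iff.2 ((norm_inv c).trans_le (inv_le_one_of_one_le₀ hc)),
    h5⟩, Holo.Sp.ext (Prod.ext rfl (inv_smul_smul₀ (norm_pos_iff.1 (one_pos.trans_le hc)) _))⟩, rfl⟩

/-- **The degeneration** of the multiples of `M` into `C`. -/
theorem dg : Dg atTop (fun t => h.gq (sc t)) (Quo.incl (Tx.act2 act ρ') h.subC) := by
  have := h.actT
  have := h.actM
  refine ⟨inferInstance, fun B hB => ?_, (IsOpenQuotientMap.id.prodMap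
    Holo.Sp.isOpenQuotientMap_mk).isQuotientMap.continuous_iff.2 (Holo.Sp.continuous_mk.comp
      (h.g_cont₂.comp (continuous_sc.prodMap continuous_id))), fun K hK =>
    (h.prop K hK).imp fun _ e => ⟨e.1, fun s => e.2 _ (one_le_sc s)⟩, h.embC, fun K hK h1 => ?_⟩
  · obtain ⟨r, hr⟩ := mem_atTop_sets.1 hB
    exact ⟨Ici r, Ici_mem_atTop r, hr, (convex_Ici r).isPathConnected nonempty_Ici⟩
  · have h2 : ∀ᶠ ε : ℂ in 𝓝 0, ∀ x ∈ K, ε ≠ 0 → ∀ y, h.gq ε⁻¹ y ≠ x := by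
      refine hK.eventually_forall_of_forall_eventually fun x hx => ?_
      obtain ⟨v, rfl⟩ := Holo.Sp.surjective_mk x
      have h3 : Continuous fun p : ℂ × Holo.Sp (Tx.act2 act ρ') (O ×ˢ univ) => (p.2.val, p.1) :=
        (Holo.Sp.continuous_val.comp continuous_snd).prodMk continuous_fst
      have h4 := (IsOpenQuotientMap.id (X := ℂ)).prodMap
        (Holo.Sp.isOpenQuotientMap_mk (act := Tx.act2 act ρ') (S := O ×ˢ univ))
      refine (h4.isOpenMap.map_nhds_eq (x := (0, v)) h4.continuous.continuousAt).ge (mem_map.2 ?_)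
      filter_upwards [h3.continuousAt (x := (0, v)) (isClosed_closure.isOpen_compl.mem_nhds
        fun e => h1 (Quo.mk _ ⟨_, h.lim' v.val_mem.1 e⟩) hx)] with p hp h0 y e
      obtain ⟨m, -, e'⟩ := h.gq_eq e
      refine hp (subset_closure ⟨h0, ?_⟩)
      have := (h.mem_range_g (inv_ne_zero h0)).1 ⟨m, e'⟩
      rwa [inv_inv] at this
    filter_upwards [(tendsto_eps.mono_right nhdsWithin_le_nhds).eventually h2] with t h3 y hy
    exact h3 _ hy (inv_ne_zero (sc_ne t)) y (by rw [inv_inv])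

theorem B1 (t : Holo.Sp (Tx.act2 act ρ') (O ×ˢ univ)) : ∀ U ∈ 𝓝 t, ∀ᶠ b in 𝓝 (t.val, (0 : ℂ)),
    b ∈ DB M → (b.2 = 0 → ∃ c, Holo.Sp.incl _ h.subC c ∈ U ∧ (Holo.Sp.incl _ h.subC c).val = b.1) ∧
      ∀ s, b.2 = (sc s)⁻¹ → (sc s)⁻¹ ≠ 0 → ∃ m, h.g (sc s) m ∈ U ∧ (h.g (sc s) m).val = b.1 := by
  have := h.actT
  have := h.orbT.nice
  intro U hU
  obtain ⟨K, h1, h2, h3⟩ := local_compact_nhds hU
  obtain ⟨V, h4, h5, h6⟩ := mem_nhdsWithin.1 ((Holo.Sp.isEmbedding_val.map_nhds_eq t).ge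
    (image_mem_map h1))
  filter_upwards [continuousAt_fst (p := (t.val, (0 : ℂ))) (h4.mem_nhds h5)] with b hb e
  obtain ⟨u, h7, h8⟩ := (h3.image Holo.Sp.continuous_val).isClosed.closure_subset_iff.2 h6
    (h4.inter_closure ⟨hb, map_mem_closure continuous_fst e fun p hp =>
      Holo.Sp.range_val.ge ⟨(h.subM hp.2).1, trivial⟩⟩)
  have h9 : b.1.1 ∈ O := (h8 ▸ u.val_mem : b.1 ∈ O ×ˢ univ).1
  refine ⟨fun e0 => ⟨Holo.Sp.of _ b.1 (h.lim' h9 (e0 ▸ e)),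
    (congrArg (· ∈ U) (Holo.Sp.ext (by exact h8))).mp (h2 h7), rfl⟩, fun s e0 _ => ?_⟩
  obtain ⟨m, rfl⟩ := (h.mem_range_g (u := u) (sc_ne s)).2 (by rw [h8, ← e0]; exact h.mem_M h9 e)
  exact ⟨m, h2 h7, h8⟩

theorem B2 (hC : ∀ y ∈ C, (y, 0) ∈ DB M) (t : Holo.Sp (Tx.act2 act ρ') (O ×ˢ univ)) :
    ∀ᶠ x in 𝓝 t, (x ∈ range (Holo.Sp.incl _ h.subC) → (x.val, 0) ∈ DB M) ∧
      ∀ s, (sc s)⁻¹ ≠ 0 → x ∈ range (h.g (sc s)) → (x.val, (sc s)⁻¹) ∈ DB M :=
  .of_forall fun _ => ⟨fun e => hC _ ((Holo.Sp.mem_range_incl _).1 e), fun s e e' =>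
    subset_closure ⟨e, (h.mem_range_g (sc_ne s)).1 e'⟩⟩

/-- The limit class. -/
noncomputable def lm : BM (Quo (Tx.act2 act ρ') M) →ₗ[ℂ] BM (Quo (Tx.act2 act ρ') C) :=
  haveI := h.niceT
  haveI := h.niceM
  h.dg.lm

theorem lm_deg {k : ℤ} {β : BM (Quo (Tx.act2 act ρ') M)} (hβ : BM.IsDeg k β) :
    BM.IsDeg k (h.lm β) :=
  haveI := h.niceT
  haveI := h.niceM
  h.dg.lm_deg hβ

end Df

end Vale.Agent.P269L.G
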