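import Vale.Agent.P269L.G.Co
import Vale.Agent.P269.Pub.T2

/-!
# The text of the virtual class in the vocabulary of the library
-/

set_option linter.all false

namespace Vale.Agent.P269L.G

open Set Function Topology Filter Module P291Z P269 P269.Ch P269.Tf

variable {A W P E : Type} [NormedRing A] [NormedAlgebra ℂ A] [NormedAddCommGroup W]
  [NormedSpace ℂ W] [NormedAddCommGroup E] [NormedSpace ℂ E] [AddCommGroup P] [Module ℂ P]
  [TopologicalSpace P]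

section

variable (D : KD A W P) (act : A → W → W) (Z S : Set W) (j : E →ₗ[ℂ] P) (ρ' : A → E → E)

/-- The projection of the cone to the zero set. -/
def prC : Quo (Tx.act2 act ρ') (CC D j Z S) → Quo act Z :=
  Quot.map (fun y => ⟨y.1.1, y.2.1⟩) fun _ _ ⟨a, ha, e⟩ => ⟨a, ha, congrArg Prod.fst e⟩

theorem continuous_prC : Continuous (prC D act Z S j ρ') :=
  continuous_quot_lift _ (continuous_quot_mk.comp
    ((continuous_fst.comp continuous_subtype_val).subtype_mk _))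

/-- The pull-back of the Thom class of the obstruction bundle by the tautological section. -/
noncomputable abbrev thC (t : Coch (Tot (Tx.act2 act ρ') D.ρ (CC D j Z S) (fun y => D.obs y.1)
    fun _ => ⊥)) : Coch (Quo (Tx.act2 act ρ') (CC D j Z S)) :=
  pull (sec (Tx.act2 act ρ') D.ρ (CC D j Z S) (fun y => D.obs y.1) (fun _ => ⊥) fun y => j y.2) t

/-- `v` is the Gysin pull-back of the cycle of the cone. -/
def VirL (v : BM (Quo act Z)) : Prop :=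
  (∀ y ∈ CC D j Z S, j y.2 ∈ D.obs y.1) ∧ ∃ (γ : BM (Quo (Tx.act2 act ρ') (CC D j Z S))) (t : _),
    Tx.IsCyc (Tx.act2 act ρ') (CC D j Z S) (Tx.Mul (RM D j S)) (Tf.fn γ) ∧
    IsThomOf (Tx.act2 act ρ') D.ρ (CC D j Z S) (fun y => D.obs y.1) (fun _ => ⊥) t ∧
    ∀ a ∈ Zc _, ev v a = ev γ (pull (prC D act Z S j ρ') a * thC D act Z S j ρ' t)

end

variable {D : KD A W P} {act : A → W → W} {Z S : Set W} {b : Pub.Bm (Quo act Z)}

theorem virE_iff {j : E →ₗ[ℂ] P} {ρ' : A → E → E} :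
    Tx.VirE act D.ρ S Z D.P₀ (fun x => D.van x) (fun x => D.obs x) D.s j ρ' b ↔
      Crd D j ρ' ∧ ∃ v, VirL D act Z S j ρ' v ∧ Tf.fn v = b := by
  unfold Tx.VirE
  simp only [Submodule.span_eq]
  constructor
  · rintro ⟨-, h1, h2, h3, h4, β, e, π, h5, h6, h7, h8, h9⟩
    obtain ⟨v, rfl⟩ := (isBM_iff (X := Quo act Z)).1 h8
    obtain ⟨γ, rfl⟩ := (isBM_iff (X := Quo (Tx.act2 act ρ') (CC D j Z S))).1 h5.1
    obtain ⟨t, k, rfl⟩ := isLoc_iff.1 h6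
    obtain rfl : π = prC D act Z S j ρ' := funext (Quot.ind fun y => by
      obtain ⟨x, k1, k2⟩ := h7 y
      exact k2.trans (congrArg _ (Subtype.ext k1)))
    exact ⟨⟨h1, SetLike.coe_injective h2, h3⟩, v, ⟨h4, γ, t, h5, k, fun a ha =>
      (fn_val v a).symm.trans ((h9 a.1 (zc_val.2 ha)).trans
        (fn_val γ (pull (prC D act Z S j ρ') a * thC D act Z S j ρ' t)))⟩, rfl⟩
  · rintro ⟨c, v, ⟨h4, γ, t, h5, k, h9⟩, rfl⟩
    refine ⟨j.isLinear, c.inj, congrArg SetLike.coe c.rng, c.eqv, h4, Tf.fn γ, _, prC D act Z S j ρ',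
      h5, isLoc_iff.2 ⟨t, k, rfl⟩, fun y => ⟨⟨_, y.2.1⟩, rfl, rfl⟩, isBM_fn v, fun a ha => ?_⟩
    obtain ⟨a, ka, rfl⟩ := (zc_iff (X := Quo act Z)).1 ha
    exact (fn_val v a).trans ((h9 a ka).trans
      (fn_val γ (pull (prC D act Z S j ρ') a * thC D act Z S j ρ' t)).symm)

/-- **The dictionary.** -/
theorem isVir_iff : Tx.IsVir act D.ρ S Z D.P₀ (fun x => D.van x) (fun x => D.obs x) D.s b ↔
    ∃ (n : ℕ) (j : (Fin n → ℂ) →ₗ[ℂ] P) (ρ' : A → (Fin n → ℂ) → Fin n → ℂ),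
      Crd D j ρ' ∧ ∃ v, VirL D act Z S j ρ' v ∧ Tf.fn v = b :=
  exists_congr fun _ => ⟨fun ⟨j, ρ', h⟩ => ⟨h.1.mk' j, ρ', virE_iff.1 h⟩,
    fun ⟨j, ρ', h⟩ => ⟨j, ρ', virE_iff.2 h⟩⟩

/-- **Reduction of the bridge**: it suffices to identify the class in all coordinates. -/
theorem bridge_of [FiniteDimensional ℂ A] [FiniteDimensional ℂ W] {O : Set W} {v r d : ℕ}
    (h : T.Kur D act Z S O v r d)
    (H : ∀ (n : ℕ) (j : (Fin n → ℂ) →ₗ[ℂ] P) (ρ' : A → (Fin n → ℂ) → Fin n → ℂ), Crd D j ρ' →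
      ∀ w, VirL D act Z S j ρ' w ↔ D.Stm act Z S w) :
    Tx.IsVir act D.ρ S Z D.P₀ (fun x => D.van x) (fun x => D.obs x) D.s b ↔
      ∃ w, D.Stm act Z S w ∧ Tf.fn w = b :=
  isVir_iff.trans ⟨fun ⟨n, j, ρ', c, w, a, e⟩ => ⟨w, (H n j ρ' c w).1 a, e⟩, fun ⟨w, a, e⟩ =>
    let ⟨n, j, ρ', c⟩ := exists_crd h
    ⟨n, j, ρ', c, w, (H n j ρ' c w).2 a, e⟩⟩

end Vale.Agent.P269L.G
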