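import Vale.Agent.P269L.L.Main
import Vale.Agent.P269L.D.Par

/-!
# The special fibre of the deformation space has the expected dimension at its smooth points
-/

open Filter Topology Set Function
open Vale.Agent.P298.H941 (O)
open Vale.Agent.P277Z.Oka Vale.Agent.P269L.L Vale.Agent.P287Q Vale.Agent.P269.Holo

noncomputable section

namespace Vale.Agent.P269L.G

variable {E F Y : Type} [NormedAddCommGroup E] [NormedSpace ℂ E] [NormedAddCommGroup F]
  [NormedSpace ℂ F] [NormedAddCommGroup Y] [NormedSpace ℂ Y]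

/-- on a sheet the set is a manifold of the dimension of the base -/
theorem Cov.mfd [FiniteDimensional ℂ E] [FiniteDimensional ℂ Y] {B U : Set E} {π : E → Y} {N : ℕ}
    {y : Y} (h : Cov B U π N y) (hN : N ≠ 0) (hU : IsOpen U) (hπ : ∀ z ∈ U, AnalyticAt ℂ π z) :
    ∃ z ∈ U, z ∈ B ∧ π z = y ∧ MfdAt B (Module.finrank ℂ Y) z := by
  have := FiniteDimensional.complete ℂ E
  have := FiniteDimensional.complete ℂ Y
  obtain ⟨φ, h1, h2, h3⟩ := h
  let k : Fin N := ⟨0, Nat.pos_of_ne_zero hN⟩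
  obtain ⟨h4, h5, h6⟩ := (h3.self_of_nhds (φ k y)).2 ⟨k, rfl⟩
  refine ⟨_, h4, h5, h6, (MfdAt.univ y).iso (G := π) (h1 k) (hπ _ h4)
    (h3.mono fun y' b _ => ((b _).2 ⟨k, rfl⟩).2) ?_⟩
  have ht : Tendsto π (𝓝 (φ k y)) (𝓝 y) := by simpa only [h6] using (hπ _ h4).continuousAt.tendsto
  have h7 : ∀ j, ∀ᶠ z in 𝓝 (φ k y), z = φ j (π z) → j = k := fun j => by
    by_cases e : j = k
    · exact .of_forall fun _ _ => e
    · have h8 : Tendsto (fun z => z - φ j (π z)) (𝓝 (φ k y)) (𝓝 (φ k y - φ j y)) :=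
        tendsto_id.sub ((h1 j).continuousAt.tendsto.comp ht)
      exact (h8.eventually_ne (sub_ne_zero.2 fun b => e (h2 b).symm)).mono
        fun z b c => absurd (sub_eq_zero.2 c) b
  filter_upwards [ht.eventually h3, hU.mem_nhds h4, eventually_all.2 h7] with z b1 b2 b3 b4
  obtain ⟨j, e⟩ := (b1 z).1 ⟨b2, b4, rfl⟩
  exact ⟨trivial, (b3 j e ▸ e :).symm⟩

/-- a branched covering has smooth points off any proper hypersurface of the base -/
theorem Sheets.mfd [FiniteDimensional ℂ E] [FiniteDimensional ℂ Y] {B : Set E} {x : E} {π : E → Y}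
    {N : ℕ} (h : Sheets B x π N) (hN : N ≠ 0) (hπ : AnalyticAt ℂ π x) {η : Y → ℂ}
    (hη : AnalyticAt ℂ η (π x)) (h0 : ¬∀ᶠ y in 𝓝 (π x), η y = 0) :
    ∃ᶠ z in 𝓝 x, z ∈ B ∧ η (π z) ≠ 0 ∧ MfdAt B (Module.finrank ℂ Y) z := by
  obtain ⟨δ, h1, h2, U₀, h3, -, h4⟩ := h
  refine frequently_iff.2 fun {V} hV => ?_
  obtain ⟨U, h5, h6, h7⟩ := mem_nhds_iff.1 (inter_mem (inter_mem hV h3) hπ.eventually_analyticAt)
  have h8 : ∃ᶠ y in 𝓝 (π x), δ y * η y ≠ 0 := fun b => by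
    have h9 := (gm_eq_zero (h1.fun_mul hη)).2 (b.mono fun _ => not_not.1)
    rw [gm_mul h1 hη, mul_eq_zero, gm_eq_zero h1, gm_eq_zero hη] at h9
    exact h9.elim h2 h0
  obtain ⟨y, b1, b2⟩ := (h8.and_eventually (h4 U (h6.mem_nhds h7) fun z b => (h5 b).1.2)).exists
  obtain ⟨z, c1, c2, c3, c4⟩ := Cov.mfd (b2 (left_ne_zero_of_mul b1)) hN h6 fun z b => (h5 b).2
  exact ⟨z, (h5 c1).1.1, c2, c3 ▸ right_ne_zero_of_mul b1, c4⟩

/-- **Purity.** -/
theorem Sheets.dim [FiniteDimensional ℂ E] [FiniteDimensional ℂ F] {B : Set E} {x : E} {w : E → F}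
    {ε : E → ℂ} {N n : ℕ} (h : Sheets B x (fun z => (w z, ε z)) N) (hN : N ≠ 0)
    (hw : AnalyticAt ℂ w x) (hε : AnalyticAt ℂ ε x) (h0 : ε x = 0)
    (hM : ∀ᶠ z in 𝓝 x, z ∈ B → ε z ≠ 0 → MfdAt B (n + 1) z) : Module.finrank ℂ F = n := by
  obtain ⟨z, ⟨h1, h2, h3⟩, h4⟩ := ((Sheets.mfd h hN (hw.prod hε) (η := Prod.snd) analyticAt_snd
    (fun b => (La.prime_snd (w x)).ne_zero ((gm_eq_zero analyticAt_snd).2
      (by simpa only [h0] using b)))).and_eventually hM).exists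
  simpa using h3.unique (h4 h1 h2)

theorem pure [FiniteDimensional ℂ E] {B : Set E} {x : E} {ε : E → ℂ} {k n : ℕ} (hB : H3.An B x)
    (hε : AnalyticAt ℂ ε x) (hd : ∀ᶠ z in 𝓝 x, z ∈ B → z ∈ closure (B \ {z | ε z = 0}))
    (hM : ∀ᶠ z in 𝓝 x, z ∈ B → ε z ≠ 0 → MfdAt B (n + 1) z)
    (hC : MfdAt (B ∩ {z | ε z = 0}) k x) : k = n := by
  obtain ⟨p, q, h⟩ := D.par_of_mfd hC
  have hs : AnalyticAt ℂ p (q x) := h.q0.symm ▸ h.pa
  obtain ⟨N, h1, -, -, -, h2⟩ := count' hB h.qa hε hC.mem.2 hd hs (h.q0.symm ▸ h.p0)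
    (h.q0.symm ▸ (h.ev_mem.and h.qp).mono fun _ b => ⟨b.1.1, b.1.2, b.2⟩)
    ((eventually_nhdsWithin_iff.1 h.pq).mono fun _ b c d => (b ⟨c, d⟩).symm)
    (Ideal.Quotient.mk _) Ideal.Quotient.mk_surjective Ideal.mk_ker
  simpa using Sheets.dim h2 h1.ne' h.qa hε hC.mem.2 hM

/-- a manifold is locally closed -/
theorem closed_near {M : Set E} {n : ℕ} {x : E} [CompleteSpace E] (h : MfdAt M n x) :
    ∀ᶠ z in 𝓝 x, z ∈ closure M → z ∈ M := by
  obtain ⟨p, q, h⟩ := D.par_of_mfd h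
  have h1 : AnalyticAt ℂ (fun z => p (q z) - z) x := (h.an_q h.pa).sub analyticAt_id
  filter_upwards [(eventually_nhdsWithin_iff.1 h.pq).eventually_nhds, h1.eventually_analyticAt,
    h.tq.eventually h.ev_mem] with z b1 b2 b3 b4
  have h2 : p (q z) - z = 0 := tendsto_nhds_unique_of_frequently_eq b2.continuousAt.tendsto
    tendsto_const_nhds (((mem_closure_iff_frequently.1 b4).and_eventually b1).mono
      fun _ c => sub_eq_zero.2 (c.2 c.1))
  exact sub_eq_zero.1 h2 ▸ b3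

/-- off the special fibre the deformation space is a manifold -/
theorem mfd_BM {W : Type} [NormedAddCommGroup W] [NormedSpace ℂ W] [FiniteDimensional ℂ W]
    [FiniteDimensional ℂ E] {M : Set (W × E)} {n : ℕ} {x : W} (hM : MfdAt M n (x, 0)) (ξ : E) :
    ∀ᶠ b in 𝓝 ((x, ξ), (0 : ℂ)),
      b ∈ closure {b : (W × E) × ℂ | b.2 ≠ 0 ∧ (b.1.1, b.2 • b.1.2) ∈ M} → b.2 ≠ 0 →
      MfdAt (closure {b : (W × E) × ℂ | b.2 ≠ 0 ∧ (b.1.1, b.2 • b.1.2) ∈ M}) (n + 1) b := by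
  have := FiniteDimensional.complete ℂ E
  have := FiniteDimensional.complete ℂ W
  let θ : (W × E) × ℂ → W × E := fun b => (b.1.1, b.2 • b.1.2)
  have hθ : Continuous θ := by fun_prop
  have ht : Tendsto θ (𝓝 ((x, ξ), 0)) (𝓝 (x, 0)) := by simpa [θ] using hθ.tendsto ((x, ξ), 0)
  have h1 : ∀ᶠ b in 𝓝 ((x, ξ), (0 : ℂ)),
      b ∈ closure {b : (W × E) × ℂ | b.2 ≠ 0 ∧ θ b ∈ M} → θ b ∈ M :=
    (ht.eventually (closed_near hM)).mono fun b h2 h3 => h2 (map_mem_closure hθ h3 fun _ h => h.2)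
  filter_upwards [h1.eventually_nhds, ht.eventually hM.eventually] with b h2 h3 h4 h5
  have h6 := (h3 (h2.self_of_nhds h4)).prod (MfdAt.univ b.2)
  rw [Module.finrank_self] at h6
  have e : ((b.1.1, b.2⁻¹ • b.2 • b.1.2), b.2) = b := by rw [inv_smul_smul₀ h5]
  have h7 := h6.iso (S' := closure {b : (W × E) × ℂ | b.2 ≠ 0 ∧ θ b ∈ M})
    (F := fun c => ((c.1.1, c.2⁻¹ • c.1.2), c.2)) (G := fun b => (θ b, b.2))
    (((analyticAt_fst.comp analyticAt_fst).prod ((analyticAt_snd.inv (by exact h5)).smul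
      (analyticAt_snd.comp analyticAt_fst))).prod analyticAt_snd)
    (((analyticAt_fst.comp analyticAt_fst).prod (analyticAt_snd.smul
      (analyticAt_snd.comp analyticAt_fst))).prod analyticAt_snd)
    ((continuous_snd.continuousAt.eventually_ne (by exact h5)).mono fun c c1 c2 =>
      ⟨subset_closure ⟨c1, by simpa [θ, c1] using c2.1⟩, by simp [θ, c1]⟩)
    (by
      show ∀ᶠ c in 𝓝 ((b.1.1, b.2⁻¹ • b.2 • b.1.2), b.2), _
      rw [e]
      filter_upwards [h2, continuous_snd.continuousAt.eventually_ne h5] with c c1 c2 c3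
      exact ⟨⟨c1 c3, trivial⟩, by simp [θ, c2]⟩)
  exact e ▸ h7

/-- **The normal cone has the dimension of the ambient manifold at its smooth points.** -/
theorem pure_BM {W : Type} [NormedAddCommGroup W] [NormedSpace ℂ W] [FiniteDimensional ℂ W]
    [FiniteDimensional ℂ E] {M C : Set (W × E)} {n k : ℕ} {y : W × E} (hM : MfdAt M n (y.1, 0))
    (hB : H3.An (closure {b : (W × E) × ℂ | b.2 ≠ 0 ∧ (b.1.1, b.2 • b.1.2) ∈ M}) (y, 0))
    (hCB : ∀ᶠ z in 𝓝 y, z ∈ C ↔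
      (z, (0 : ℂ)) ∈ closure {b : (W × E) × ℂ | b.2 ≠ 0 ∧ (b.1.1, b.2 • b.1.2) ∈ M})
    (hC : MfdAt C k y) : k = n := by
  have := FiniteDimensional.complete ℂ E
  have := FiniteDimensional.complete ℂ W
  refine pure hB analyticAt_snd (.of_forall fun z h => closure_mono (show {b : (W × E) × ℂ | b.2 ≠ 0 ∧
    (b.1.1, b.2 • b.1.2) ∈ M} ⊆ _ from fun _ b => And.intro (subset_closure b) b.1) h) (mfd_BM hM y.2) (hC.iso (F := fun z => (z, (0 : ℂ))) (G := Prod.fst)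
      (analyticAt_id.prod analyticAt_const) analyticAt_fst
      (hCB.mono fun z b c => ⟨⟨b.1 c, rfl⟩, rfl⟩) ?_)
  filter_upwards [(continuous_fst.tendsto (y, (0 : ℂ))).eventually hCB] with z b c
  have e : (z.1, (0 : ℂ)) = z := Prod.ext rfl c.2.symm
  exact ⟨b.2 (e.symm ▸ c.1), e⟩

end Vale.Agent.P269L.G
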