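import Vale.Agent.P269L.G.Pub
import Vale.Agent.P269L.G.As
import Vale.Agent.P269L.G.Lim
import Vale.Agent.P269L.U.Tx

/-!
# Reduction of the bridge to the cycle of the cone and the Gysin formula
-/

set_option linter.all false

namespace Vale.Agent.P269L.G

open Set Function Topology Filter Module P291Z P269 P269.Ch P269.Holo

variable {A W P ι : Type} [NormedRing A] [NormedAlgebra ℂ A] [NormedAddCommGroup W]
  [NormedSpace ℂ W] [AddCommGroup P] [Module ℂ P] [TopologicalSpace P] [Fintype ι]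
  [FiniteDimensional ℂ A] [FiniteDimensional ℂ W] [IsTopologicalAddGroup P] [ContinuousSMul ℂ P]
  {D : KD A W P} {act : A → W → W} {Z S O : Set W} {v r d : ℕ} (h : T.Kur D act Z S O v r d)
include h

section

variable {j : (ι → ℂ) →ₗ[ℂ] P} {ρ' : A → (ι → ℂ) → ι → ℂ} (c : Crd D j ρ')
include c

/-- the deformation to the normal cone -/
theorem df : Df act ρ' O (RM D j O) (CC D j Z S) :=
  ⟨actT h c, actM h c, actC h c, orbT h c, cloM h c, cloC h, fun _ ha => rho_smul h c ha,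
    fun _ a b => (mem_cone h c).2 ⟨(zero_mem h a.1).1 a, b⟩⟩

theorem mem_DB (y : W × (ι → ℂ)) (hy : y ∈ CC D j Z S) : (y, (0 : ℂ)) ∈ DB (RM D j O) :=
  ((mem_cone h c).1 hy).2

theorem cone_mem (y : W × (ι → ℂ)) (hy : y ∈ CC D j Z S) :
    (y.1, (0 : ι → ℂ)) ∈ RM D j O ∧ j y.2 ∈ D.obs y.1 :=
  ⟨(zero_mem h (h.dom.sub hy.1)).2 hy.1, cone_obs h c y hy⟩

theorem virL_iff (hm : ∀ k y, MfdAt (CC D j Z S) k y → ∀ z z', Tx.Mul (RM D j S) y z →
      Tx.Mul (RM D j S) y z' → z = z') {γ : BM (Quo (Tx.act2 act ρ') (CC D j Z S))}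
    (hγ : haveI := actC h c; U.Cy (Tx.act2 act ρ') (CC D j Z S) (Tx.Mul (RM D j S)) γ)
    {w : BM (Quo act Z)}
    (ht : ∃ t, IsThomOf (Tx.act2 act ρ') D.ρ (CC D j Z S) (fun y => D.obs y.1) (fun _ => ⊥) t)
    (hw : ∀ t, IsThomOf (Tx.act2 act ρ') D.ρ (CC D j Z S) (fun y => D.obs y.1) (fun _ => ⊥) t →
      ∀ a ∈ Zc _, ev w a = ev γ (pull (prC D act Z S j ρ') a * thC D act Z S j ρ' t))
    (w' : BM (Quo act Z)) : VirL D act Z S j ρ' w' ↔ w' = w := by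
  haveI := actC h c
  have o := orbC h c
  haveI := o.proper
  haveI : LocallyCompactSpace (CC D j Z S) := o.nice.lc
  have k := (U.isCyc_fn o.finite_stabilizer).2 hγ
  refine ⟨fun ⟨_, γ', t, a1, a2, a3⟩ => BM.ext_ev fun a ha => ?_, fun e => ?_⟩
  · rw [a3 a ha, hw t a2 a ha, Tf.fn_inj (U.isCyc_unique o (an_cone h c) hm a1 k)]
  · obtain ⟨t, a⟩ := ht
    exact ⟨cone_obs h c, γ, t, k, a, e ▸ hw t a⟩

end

/-- **The bridge** from the multiplicities, the cycle and the Gysin formula. -/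
theorem bridge_red (H : ∀ (n : ℕ) (j : (Fin n → ℂ) →ₗ[ℂ] P) (ρ' : A → (Fin n → ℂ) → Fin n → ℂ)
      (c : Crd D j ρ'), (∀ k y, MfdAt (CC D j Z S) k y → ∀ z z', Tx.Mul (RM D j S) y z →
        Tx.Mul (RM D j S) y z' → z = z') ∧
      ∃ (γ : BM (Quo (Tx.act2 act ρ') (CC D j Z S))) (w : BM (Quo act Z)),
        (haveI := actC h c; U.Cy (Tx.act2 act ρ') (CC D j Z S) (Tx.Mul (RM D j S)) γ) ∧
        (∀ w', D.Stm act Z S w' ↔ w' = w) ∧
        (∃ t, IsThomOf (Tx.act2 act ρ') D.ρ (CC D j Z S) (fun y => D.obs y.1) (fun _ => ⊥) t) ∧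
        ∀ t, IsThomOf (Tx.act2 act ρ') D.ρ (CC D j Z S) (fun y => D.obs y.1) (fun _ => ⊥) t →
          ∀ a ∈ Zc _, ev w a = ev γ (pull (prC D act Z S j ρ') a * thC D act Z S j ρ' t))
    (b : Pub.Bm (Quo act Z)) :
    Tx.IsVir act D.ρ S Z D.P₀ (fun x => D.van x) (fun x => D.obs x) D.s b ↔
      ∃ w, D.Stm act Z S w ∧ Tf.fn w = b :=
  bridge_of h fun n j ρ' c w' =>
    let ⟨a, _, _, a1, a2, a3, a4⟩ := H n j ρ' c
    (virL_iff h c a a1 a3 a4 w').trans (a2 w').symm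

end Vale.Agent.P269L.G
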